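import Mathlib

namespace P248

open Filter Set in
theorem arith (n : ℕ) (hn : 1 ≤ n) (c g : ℝ) (hc : 0 < c) (hg : 0 < g) (hlt : g < c ^ n) :
    ∃ ε : ℝ, 0 < ε ∧ ∃ M : ℕ, ∀ N ≥ M, n ≤ N ∧
      g ^ (1 + (N - n) / n) * 4 ^ ((N - n) % n) < (c - ε) ^ N := by
  obtain ⟨c', hg', hc'0, hc'c⟩ : ∃ c' : ℝ, g < c' ^ n ∧ 0 < c' ∧ c' < c := by
    have h1 : ∀ᶠ x in nhds c, g < x ^ n := ((continuous_pow n).tendsto c).eventually
      (lt_mem_nhds hlt)
    have h2 : ∀ᶠ x in nhdsWithin c (Iio c), g < x ^ n := h1.filter_mono nhdsWithin_le_nhds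
    have h3 : ∀ᶠ x in nhdsWithin c (Iio c), x ∈ Ioo 0 c := Ioo_mem_nhdsLT hc
    obtain ⟨x, hx1, hx2⟩ := (h2.and h3).exists
    exact ⟨x, hx1, hx2.1, hx2.2⟩
  have hcn : 0 < c' ^ n := pow_pos hc'0 n
  set ρ := g / c' ^ n with hρ
  have hρ0 : 0 < ρ := div_pos hg hcn
  have hρ1 : ρ < 1 := (div_lt_one hcn).2 hg'
  set a := min 1 (c' / 4) with ha
  have ha0 : 0 < a := lt_min one_pos (by positivity)
  have ha1 : a ≤ 1 := min_le_left _ _
  obtain ⟨Q0, hQ0⟩ := exists_pow_lt_of_lt_one (pow_pos ha0 n) hρ1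
  refine ⟨c - c', by linarith, n * (Q0 + 1), fun N hN => ?_⟩
  have hnN : n ≤ N := le_trans (by nlinarith) hN
  refine ⟨hnN, ?_⟩
  have e0 : c - (c - c') = c' := by ring
  rw [e0]
  set q := (N - n) / n with hq
  set r := (N - n) % n with hr
  have hN2 : n * q + r = N - n := Nat.div_add_mod (N - n) n
  have hN3 : N = n * (1 + q) + r := by
    have : n * (1 + q) = n + n * q := by ring
    omega
  have hrn : r < n := Nat.mod_lt _ (by omega)
  have hqQ : Q0 ≤ q := by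
    rw [hq, Nat.le_div_iff_mul_le (by omega)]
    have : n * (Q0 + 1) = Q0 * n + n := by ring
    omega
  have h1 : ρ ^ (1 + q) < a ^ n :=
    lt_of_le_of_lt (pow_le_pow_of_le_one hρ0.le hρ1.le (by omega)) hQ0
  have h2 : a ^ n ≤ a ^ r := pow_le_pow_of_le_one ha0.le ha1 hrn.le
  have h3 : a ^ r ≤ (c' / 4) ^ r := pow_le_pow_left₀ ha0.le (min_le_right _ _) r
  have h4 : ρ ^ (1 + q) < (c' / 4) ^ r := lt_of_lt_of_le h1 (h2.trans h3)
  have h5 : g = ρ * c' ^ n := by rw [hρ]; field_simp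
  calc g ^ (1 + q) * 4 ^ r = ρ ^ (1 + q) * ((c' ^ n) ^ (1 + q) * 4 ^ r) := by
        rw [h5, mul_pow]; ring
    _ < (c' / 4) ^ r * ((c' ^ n) ^ (1 + q) * 4 ^ r) :=
        mul_lt_mul_of_pos_right h4 (by positivity)
    _ = c' ^ N := by
        have e1 : c' ^ N = (c' ^ n) ^ (1 + q) * c' ^ r := by
          rw [← pow_mul, ← pow_add, ← hN3]
        rw [e1, div_pow]
        field_simp

end P248
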