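import Mathlib

namespace P248

open Filter Set in
theorem arithQ2 (n : ℕ) (r : ℝ) (h0 : 0 < r) (h1 : r < 1) :
    ∃ ε : ℝ, 0 < ε ∧ ε < 1 ∧ ∃ M : ℕ, ∀ N ≥ M, ∃ m j : ℕ,
      1 ≤ m ∧ N = m * (n + 1) - 1 + j ∧ r ^ m < (1 - ε) ^ N := by
  obtain ⟨c, hc, hc0, hc1⟩ : ∃ c : ℝ, r < c ^ (2 * (n + 1)) ∧ 0 < c ∧ c < 1 := by
    have e1 : ∀ᶠ x in nhds (1 : ℝ), r < x ^ (2 * (n + 1)) :=
      ((continuous_pow (2 * (n + 1))).tendsto (1 : ℝ)).eventually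
        (lt_mem_nhds (by simpa using h1))
    have e2 : ∀ᶠ x in nhdsWithin (1 : ℝ) (Iio 1), r < x ^ (2 * (n + 1)) :=
      e1.filter_mono nhdsWithin_le_nhds
    have e3 : ∀ᶠ x in nhdsWithin (1 : ℝ) (Iio 1), x ∈ Ioo (0 : ℝ) 1 := Ioo_mem_nhdsLT one_pos
    obtain ⟨x, hx1, hx2⟩ := (e2.and e3).exists
    exact ⟨x, hx1, hx2.1, hx2.2⟩
  refine ⟨1 - c, by linarith, by linarith, n + 1, fun N hN => ?_⟩
  have hq : (n + 1) * ((N + 1) / (n + 1)) + (N + 1) % (n + 1) = N + 1 := Nat.div_add_mod _ _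
  have hr : (N + 1) % (n + 1) < n + 1 := Nat.mod_lt _ (by omega)
  have hm : 1 ≤ (N + 1) / (n + 1) := (Nat.one_le_div_iff (by omega)).2 (by omega)
  set m := (N + 1) / (n + 1)
  set j := (N + 1) % (n + 1)
  have hmn : n + 1 ≤ (n + 1) * m := Nat.le_mul_of_pos_right _ hm
  refine ⟨m, j, hm, ?_, ?_⟩
  · rw [Nat.mul_comm m (n + 1)]
    omega
  · have e0 : 1 - (1 - c) = c := by ring
    rw [e0]
    have hNle : N ≤ 2 * (n + 1) * m := by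
      have : 2 * (n + 1) * m = (n + 1) * m + (n + 1) * m := by ring
      omega
    calc r ^ m < (c ^ (2 * (n + 1))) ^ m := pow_lt_pow_left₀ hc h0.le (by omega)
      _ = c ^ (2 * (n + 1) * m) := by rw [← pow_mul]
      _ ≤ c ^ N := pow_le_pow_of_le_one hc0.le hc1.le hNle

end P248
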