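import Mathlib
import Vale.Agent.P254.Basic

/-! P248: definitions used in the statement (`IsBody`, `vol` are those of P254). -/

namespace P248

open MeasureTheory Set
open scoped Nat
open P254 (IsBody vol)

variable {ι κ : Type} [Fintype ι] [DecidableEq ι] [Fintype κ] [DecidableEq κ]

/-- the polar body `(K - z)°` -/
def pol (K : Set (ι → ℝ)) (z : ι → ℝ) : Set (ι → ℝ) :=
  {y | ∀ x ∈ K, ∑ i, y i * (x i - z i) ≤ 1}

/-- the volume product `P(K)`, the infimum over the interior of `K` -/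
noncomputable def VP (K : Set (ι → ℝ)) : ℝ := ⨅ z : interior K, vol K * vol (pol K z)

/-- in `R^n`, `|K| |K°| ≥ c^n / n!` for all origin-symmetric convex bodies -/
def Q1 (n : ℕ) (c : ℝ) : Prop :=
  ∀ K : Set (Fin n → ℝ), IsBody K → (∀ x ∈ K, -x ∈ K) → c ^ n / (n ! : ℝ) ≤ vol K * vol (pol K 0)

/-- in `R^n`, `P(K) ≥ c^n / n!` for all convex bodies -/
def Q2 (n : ℕ) (c : ℝ) : Prop :=
  ∀ K : Set (Fin n → ℝ), IsBody K → c ^ n / (n ! : ℝ) ≤ VP K

end P248
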