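import Mathlib
import Vale.Agent.P248.Defs

namespace P248

open MeasureTheory Set
open scoped Nat
open P254 (IsBody vol)

variable {ι κ : Type} [Fintype ι] [DecidableEq ι] [Fintype κ] [DecidableEq κ]

theorem pol_body {K : Set (ι → ℝ)} (hK : IsBody K) {z : ι → ℝ} (hz : z ∈ interior K) :
    IsBody (pol K z) ∧ (0 : ι → ℝ) ∈ pol K z := by
  have h0 : (0 : ι → ℝ) ∈ pol K z := by
    intro x _
    simp
  have hz' := hz
  rw [mem_interior_iff_mem_nhds, Metric.mem_nhds_iff] at hz'
  obtain ⟨ε, hε, hball⟩ := hz'
  obtain ⟨R, hR⟩ := hK.comp.isBounded.exists_norm_le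
  refine ⟨⟨?_, ?_, ?_⟩, h0⟩
  · intro y hy y' hy' a b ha hb hab x hx
    have e : ∑ i, (a • y + b • y') i * (x i - z i)
        = a * ∑ i, y i * (x i - z i) + b * ∑ i, y' i * (x i - z i) := by
      rw [Finset.mul_sum, Finset.mul_sum, ← Finset.sum_add_distrib]
      exact Finset.sum_congr rfl fun i _ => by
        simp only [Pi.add_apply, Pi.smul_apply, smul_eq_mul]; ring
    rw [e]
    have h1 := mul_le_mul_of_nonneg_left (hy x hx) ha
    have h2 := mul_le_mul_of_nonneg_left (hy' x hx) hb
    linarith
  · apply Metric.isCompact_of_isClosed_isBounded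
    · have hset : pol K z = ⋂ x ∈ K, {y : ι → ℝ | ∑ i, y i * (x i - z i) ≤ 1} := by
        ext y
        simp [pol]
      rw [hset]
      refine isClosed_biInter fun x _ => ?_
      exact isClosed_le (by fun_prop) continuous_const
    · rw [isBounded_iff_forall_norm_le]
      refine ⟨2 / ε, fun y hy => ?_⟩
      rw [pi_norm_le_iff_of_nonneg (by positivity)]
      intro i
      rw [Real.norm_eq_abs, abs_le]
      have hmem : ∀ s : ℝ, |s| = ε / 2 → z + Pi.single i s ∈ K := by
        intro s hs
        apply hball
        rw [mem_ball_iff_norm, add_sub_cancel_left, Pi.norm_single, Real.norm_eq_abs, hs]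
        linarith
      have hval : ∀ s : ℝ, |s| = ε / 2 → y i * s ≤ 1 := by
        intro s hs
        have h1 := hy _ (hmem s hs)
        simpa [Pi.single_apply] using h1
      have h1 := hval (ε / 2) (abs_of_pos (by positivity))
      have h2 := hval (-(ε / 2)) (by rw [abs_neg, abs_of_pos (by positivity)])
      constructor
      · rw [neg_le, ← neg_le_neg_iff] 
        rw [neg_neg, ← sub_nonneg]
        have e3 : -y i ≤ 2 / ε := by
          rw [le_div_iff₀ hε]; linarith
        linarith
      · rw [le_div_iff₀ hε]; linarith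
  · refine ⟨0, ?_⟩
    rw [mem_interior_iff_mem_nhds, Metric.mem_nhds_iff]
    set M : ℝ := |R| + ‖z‖ with hM
    have hM0 : 0 ≤ M := by positivity
    set n : ℝ := (Fintype.card ι : ℝ) with hn
    have hn0 : 0 ≤ n := Nat.cast_nonneg _
    refine ⟨1 / ((n + 1) * (M + 1)), by positivity, fun y hy x hx => ?_⟩
    rw [mem_ball_zero_iff] at hy
    have h1 : ∀ i, y i * (x i - z i) ≤ 1 / (n + 1) := by
      intro i
      have e1 : |y i| ≤ 1 / ((n + 1) * (M + 1)) := by
        have := norm_le_pi_norm y i
        rw [Real.norm_eq_abs] at this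
        linarith
      have e2 : |x i - z i| ≤ M + 1 := by
        have a1 : |x i| ≤ |R| := by
          have := (norm_le_pi_norm x i).trans (hR x hx)
          rw [Real.norm_eq_abs] at this
          exact this.trans (le_abs_self R)
        have a2 : |z i| ≤ ‖z‖ := by
          have := norm_le_pi_norm z i
          rwa [Real.norm_eq_abs] at this
        have a3 := abs_sub (x i) (z i)
        linarith
      calc y i * (x i - z i) ≤ |y i * (x i - z i)| := le_abs_self _
        _ = |y i| * |x i - z i| := abs_mul _ _
        _ ≤ 1 / ((n + 1) * (M + 1)) * (M + 1) :=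
            mul_le_mul e1 e2 (abs_nonneg _) (by positivity)
        _ = 1 / (n + 1) := by field_simp
    calc ∑ i, y i * (x i - z i) ≤ ∑ _i : ι, 1 / (n + 1) := Finset.sum_le_sum fun i _ => h1 i
      _ = n * (1 / (n + 1)) := by rw [Finset.sum_const, Finset.card_univ, nsmul_eq_mul]
      _ ≤ 1 := by
          rw [mul_one_div, div_le_one (by positivity)]
          linarith

end P248
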