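import Mathlib
import Vale.Agent.P248.Defs
import Vale.Agent.P254.ProdBody

namespace P248

open MeasureTheory Set
open scoped Nat Pointwise
open P254 (IsBody vol prodBody freeSum)

variable {ι κ : Type} [Fintype ι] [DecidableEq ι] [Fintype κ] [DecidableEq κ]

theorem mem_smul_pol {K : Set (ι → ℝ)} {z : ι → ℝ} (hz : z ∈ interior K) {a : ι → ℝ} {t : ℝ}
    (ht : 0 ≤ t) (h : ∀ x ∈ K, ∑ i, a i * (x i - z i) ≤ t) : a ∈ t • pol K z := by
  rcases ht.eq_or_lt with ht0 | ht0
  · subst ht0
    have hcont : Continuous (fun r : ℝ => z + r • a) := by fun_prop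
    have h0 : (fun r : ℝ => z + r • a) 0 ∈ interior K := by simpa using hz
    have hev : ∀ᶠ r in nhds (0 : ℝ), z + r • a ∈ interior K :=
      hcont.continuousAt.eventually (isOpen_interior.mem_nhds h0)
    obtain ⟨r, hr, hrp⟩ := ((hev.filter_mono nhdsWithin_le_nhds).and
      (self_mem_nhdsWithin : Ioi (0 : ℝ) ∈ nhdsWithin 0 (Ioi 0))).exists
    have hrp' : 0 < r := hrp
    have h1 := h _ (interior_subset hr)
    have h2 : ∑ i, a i * ((z + r • a) i - z i) = r * ∑ i, a i * a i := by
      rw [Finset.mul_sum]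
      apply Finset.sum_congr rfl
      intro i _
      simp only [Pi.add_apply, Pi.smul_apply, smul_eq_mul]
      ring
    rw [h2] at h1
    have h3 : ∑ i, a i * a i = 0 := by
      apply le_antisymm
      · by_contra hcon
        have : 0 < r * ∑ i, a i * a i := mul_pos hrp' (not_le.mp hcon)
        linarith
      · exact Finset.sum_nonneg (fun i _ => mul_self_nonneg _)
    have h4 : a = 0 := by
      funext i
      have := (Finset.sum_eq_zero_iff_of_nonneg (fun i _ => mul_self_nonneg (a i))).mp h3 i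
        (Finset.mem_univ i)
      simpa using this
    refine ⟨0, ?_, ?_⟩
    · intro x _
      simp
    · simp [h4]
  · refine ⟨t⁻¹ • a, ?_, ?_⟩
    · intro x hx
      have h1 := h x hx
      have h2 : ∑ i, (t⁻¹ • a) i * (x i - z i) = t⁻¹ * ∑ i, a i * (x i - z i) := by
        rw [Finset.mul_sum]
        apply Finset.sum_congr rfl
        intro i _
        simp only [Pi.smul_apply, smul_eq_mul]
        ring
      rw [h2, inv_mul_le_iff₀ ht0]
      linarith
    · simp only
      rw [smul_smul, mul_inv_cancel₀ ht0.ne', one_smul]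

theorem exists_max {K : Set (ι → ℝ)} (hK : IsBody K) {z : ι → ℝ} (hz : z ∈ interior K)
    (a : ι → ℝ) : ∃ x₀ ∈ K, 0 ≤ ∑ i, a i * (x₀ i - z i) ∧
      ∀ x ∈ K, ∑ i, a i * (x i - z i) ≤ ∑ i, a i * (x₀ i - z i) := by
  have hzK : z ∈ K := interior_subset hz
  have hc : ContinuousOn (fun x : ι → ℝ => ∑ i, a i * (x i - z i)) K := by fun_prop
  obtain ⟨x₀, hx₀, hmax⟩ := hK.comp.exists_isMaxOn ⟨z, hzK⟩ hc
  refine ⟨x₀, hx₀, ?_, fun x hx => hmax hx⟩
  have h1 : ∑ i, a i * (z i - z i) ≤ ∑ i, a i * (x₀ i - z i) := hmax hzK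
  simpa using h1

/-- `s = max over K of y·(x - z) ≥ 0` since `z ∈ K`; `y ∈ s • pol K z` (if `s = 0` then `y = 0`
because `z` is interior), `w ∈ (1 - s) • pol L z'` in the same way. -/
theorem pol_prod {K : Set (ι → ℝ)} {L : Set (κ → ℝ)} (hK : IsBody K) (hL : IsBody L)
    {z : ι → ℝ} (hz : z ∈ interior K) {w : κ → ℝ} (hw : w ∈ interior L) :
    pol (prodBody K L) (Sum.elim z w) = freeSum (pol K z) (pol L w) := by
  ext y
  constructor
  · intro hy
    obtain ⟨x₀, hx₀, h0, hmax⟩ := exists_max hK hz (fun i => y (Sum.inl i))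
    obtain ⟨y₀, hy₀, h0', hmax'⟩ := exists_max hL hw (fun j => y (Sum.inr j))
    have h1 := hy (Sum.elim x₀ y₀) ⟨hx₀, hy₀⟩
    rw [Fintype.sum_sum_type] at h1
    simp only [Sum.elim_inl, Sum.elim_inr] at h1
    refine ⟨∑ i, y (Sum.inl i) * (x₀ i - z i), 1 - ∑ i, y (Sum.inl i) * (x₀ i - z i), h0,
      by linarith, by ring, ?_, ?_⟩
    · exact mem_smul_pol hz h0 hmax
    · exact mem_smul_pol hw (by linarith) (fun x hx => (hmax' x hx).trans (by linarith))
  · rintro ⟨s, t, hs, ht, hst, ⟨a, ha, hae⟩, ⟨b, hb, hbe⟩⟩ x ⟨hx1, hx2⟩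
    have e1 : ∀ i, y (Sum.inl i) = s * a i := fun i => by
      have := congrFun hae i
      simpa using this.symm
    have e2 : ∀ j, y (Sum.inr j) = t * b j := fun j => by
      have := congrFun hbe j
      simpa using this.symm
    have h1 := ha _ hx1
    have h2 := hb _ hx2
    rw [Fintype.sum_sum_type]
    simp only [Sum.elim_inl, Sum.elim_inr, e1, e2]
    have e3 : ∑ i, s * a i * (x (Sum.inl i) - z i) = s * ∑ i, a i * (x (Sum.inl i) - z i) := by
      rw [Finset.mul_sum]
      apply Finset.sum_congr rfl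
      intro i _
      ring
    have e4 : ∑ j, t * b j * (x (Sum.inr j) - w j) = t * ∑ j, b j * (x (Sum.inr j) - w j) := by
      rw [Finset.mul_sum]
      apply Finset.sum_congr rfl
      intro i _
      ring
    rw [e3, e4]
    have h3 := mul_le_mul_of_nonneg_left h1 hs
    have h4 := mul_le_mul_of_nonneg_left h2 ht
    linarith

end P248
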