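import Mathlib
import Vale.Agent.P248.Body
import Vale.Agent.P248.PolProd
import Vale.Agent.P254.AlgB

namespace P248

open MeasureTheory Set
open scoped Nat
open P254 (IsBody vol prodBody freeSum)

variable {ι κ : Type} [Fintype ι] [DecidableEq ι] [Fintype κ] [DecidableEq κ]

/-- there is a body of dimension `N`, with an interior point, whose normalised volume product
is `γ` -/
def R (N : ℕ) (γ : ℝ) (S : Prop) : Prop :=
  ∃ (ι : Type) (_ : Fintype ι) (_ : DecidableEq ι) (M : Set (ι → ℝ)) (w : ι → ℝ),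
    Fintype.card ι = N ∧ IsBody M ∧ w ∈ interior M ∧
    (N ! : ℝ) * (vol M * vol (pol M w)) = γ ∧ (S → (∀ x ∈ M, -x ∈ M) ∧ w = 0)

theorem R.comb {k m : ℕ} (hk : 1 ≤ k) (hm : 1 ≤ m) {γ δ : ℝ} {S : Prop} (h1 : R k γ S)
    (h2 : R m δ S) : R (k + m) (γ * δ) S := by
  obtain ⟨ι, _, _, K, z, c1, b1, i1, e1, s1⟩ := h1
  obtain ⟨κ, _, _, L, w, c2, b2, i2, e2, s2⟩ := h2
  have : Nonempty ι := Fintype.card_pos_iff.1 (by omega)
  have : Nonempty κ := Fintype.card_pos_iff.1 (by omega)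
  refine ⟨ι ⊕ κ, inferInstance, inferInstance, prodBody K L, Sum.elim z w, ?_, ?_, ?_, ?_, ?_⟩
  · rw [Fintype.card_sum, c1, c2]
  · exact P254.prodBody_body b1 b2
  · have hU : IsOpen {z : ι ⊕ κ → ℝ | (fun i => z (Sum.inl i)) ∈ interior K ∧
        (fun j => z (Sum.inr j)) ∈ interior L} := by
      apply IsOpen.inter
      · exact isOpen_interior.preimage (by fun_prop)
      · exact isOpen_interior.preimage (by fun_prop)
    have hsub : {z : ι ⊕ κ → ℝ | (fun i => z (Sum.inl i)) ∈ interior K ∧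
        (fun j => z (Sum.inr j)) ∈ interior L} ⊆ prodBody K L := by
      rintro z ⟨h1, h3⟩
      exact ⟨interior_subset h1, interior_subset h3⟩
    exact interior_maximal hsub hU ⟨i1, i2⟩
  · obtain ⟨p1, q1⟩ := pol_body b1 i1
    obtain ⟨p2, q2⟩ := pol_body b2 i2
    rw [pol_prod b1 b2 i1 i2, P254.vol_prodBody, P254.vol_freeSum p1 q1 p2 q2, ← e1, ← e2,
      c1, c2]
    have : (((k + m)! : ℕ) : ℝ) ≠ 0 := by positivity
    field_simp
  · intro hS
    obtain ⟨a1, a2⟩ := s1 hS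
    obtain ⟨a3, a4⟩ := s2 hS
    constructor
    · rintro x ⟨hx1, hx2⟩
      exact ⟨a1 _ hx1, a3 _ hx2⟩
    · subst a2 a4
      ext a
      rcases a with a | a <;> rfl

/-- reindexing -/
def reix (e : ι ≃ κ) (M : Set (ι → ℝ)) : Set (κ → ℝ) := {x | (fun i => x (e i)) ∈ M}

omit [DecidableEq ι] [DecidableEq κ] in
theorem vol_reix (e : ι ≃ κ) (M : Set (ι → ℝ)) : vol (reix e M) = vol M := by
  have h := (volume_measurePreserving_piCongrLeft (fun _ : κ => ℝ) e).symm
  have h2 := h.measure_preimage_equiv M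
  unfold vol
  congr 1

omit [DecidableEq ι] [DecidableEq κ] in
theorem pol_reix (e : ι ≃ κ) (M : Set (ι → ℝ)) (w : ι → ℝ) :
    pol (reix e M) (fun k => w (e.symm k)) = reix e (pol M w) := by
  ext y
  constructor
  · intro h x hx
    have := h (fun k => x (e.symm k)) (by simpa [reix] using hx)
    rw [← Equiv.sum_comp e] at this
    simpa using this
  · intro h x hx
    have := h (fun i => x (e i)) hx
    rw [← Equiv.sum_comp e]
    simpa using this

omit [DecidableEq ι] [DecidableEq κ] in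
theorem reix_body (e : ι ≃ κ) {M : Set (ι → ℝ)} (hM : IsBody M) : IsBody (reix e M) := by
  refine ⟨?_, ?_, ?_⟩
  · intro x hx y hy a b ha hb hab
    exact hM.conv hx hy ha hb hab
  · have : reix e M = (fun (x : ι → ℝ) (k : κ) => x (e.symm k)) '' M := by
      ext x
      constructor
      · intro hx
        exact ⟨_, hx, by ext k; simp⟩
      · rintro ⟨y, hy, rfl⟩
        simpa [reix] using hy
    rw [this]
    exact hM.comp.image (by fun_prop)
  · obtain ⟨a, ha⟩ := hM.int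
    refine ⟨fun k => a (e.symm k), ?_⟩
    refine interior_maximal (s := reix e M) (t := {x | (fun i => x (e i)) ∈ interior M})
      (fun x hx => interior_subset (s := M) hx) (isOpen_interior.preimage (by fun_prop)) ?_
    simpa using ha

omit [DecidableEq ι] [DecidableEq κ] in
theorem reix_int (e : ι ≃ κ) {M : Set (ι → ℝ)} {w : ι → ℝ} (hw : w ∈ interior M) :
    (fun k => w (e.symm k)) ∈ interior (reix e M) := by
  refine interior_maximal (s := reix e M) (t := {x | (fun i => x (e i)) ∈ interior M})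
      (fun x hx => interior_subset (s := M) hx) (isOpen_interior.preimage (by fun_prop)) ?_
  simpa using hw

theorem R.fin {N : ℕ} {γ : ℝ} {S : Prop} (h : R N γ S) :
    ∃ (M : Set (Fin N → ℝ)) (w : Fin N → ℝ), IsBody M ∧ w ∈ interior M ∧
      (N ! : ℝ) * (vol M * vol (pol M w)) = γ ∧ (S → (∀ x ∈ M, -x ∈ M) ∧ w = 0) := by
  obtain ⟨ι, _, _, K, z, c1, b1, i1, e1, s1⟩ := h
  have e : ι ≃ Fin N := Fintype.equivFinOfCardEq c1
  refine ⟨reix e K, fun k => z (e.symm k), reix_body e b1, reix_int e i1, ?_, ?_⟩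
  · rw [pol_reix, vol_reix, vol_reix, e1]
  · intro hS
    obtain ⟨a1, a2⟩ := s1 hS
    constructor
    · intro x hx
      exact a1 _ hx
    · subst a2
      rfl

/-- the segment -/
theorem R.seg (S : Prop) : R 1 4 S := by
  have hball : {x : Fin 1 → ℝ | -1 ≤ x 0 ∧ x 0 ≤ 1} = Icc (fun _ => -1) (fun _ => 1) := by
    ext x
    simp [Pi.le_def, Fin.forall_fin_one]
  have hvol : vol {x : Fin 1 → ℝ | -1 ≤ x 0 ∧ x 0 ≤ 1} = 2 := by
    rw [hball]
    unfold vol
    rw [Real.volume_Icc_pi]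
    simp
    norm_num
  have hpol : pol {x : Fin 1 → ℝ | -1 ≤ x 0 ∧ x 0 ≤ 1} 0
      = {x : Fin 1 → ℝ | -1 ≤ x 0 ∧ x 0 ≤ 1} := by
    ext y
    constructor
    · intro h
      have h1 := h (fun _ => 1) ⟨by norm_num, by norm_num⟩
      have h2 := h (fun _ => -1) ⟨by norm_num, by norm_num⟩
      simp at h1 h2
      exact ⟨by linarith, by linarith⟩
    · rintro ⟨h1, h2⟩ x ⟨h3, h4⟩
      simp only [Finset.univ_unique, Fin.default_eq_zero, Finset.sum_singleton, Pi.zero_apply,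
        sub_zero]
      nlinarith
  have hint : (0 : Fin 1 → ℝ) ∈ interior {x : Fin 1 → ℝ | -1 ≤ x 0 ∧ x 0 ≤ 1} := by
    have ho : IsOpen {x : Fin 1 → ℝ | -1 < x 0 ∧ x 0 < 1} := by
      have h1 : IsOpen {x : Fin 1 → ℝ | -1 < x 0} := isOpen_lt (by fun_prop) (by fun_prop)
      have h2 : IsOpen {x : Fin 1 → ℝ | x 0 < 1} := isOpen_lt (by fun_prop) (by fun_prop)
      exact h1.inter h2
    have hsub : {x : Fin 1 → ℝ | -1 < x 0 ∧ x 0 < 1} ⊆ {x : Fin 1 → ℝ | -1 ≤ x 0 ∧ x 0 ≤ 1} :=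
      fun x hx => ⟨hx.1.le, hx.2.le⟩
    have h0 : (0 : Fin 1 → ℝ) ∈ {x : Fin 1 → ℝ | -1 < x 0 ∧ x 0 < 1} :=
      ⟨by norm_num, by norm_num⟩
    exact interior_maximal hsub ho h0
  refine ⟨Fin 1, inferInstance, inferInstance, {x | -1 ≤ x 0 ∧ x 0 ≤ 1}, 0, by simp,
    ⟨?_, ?_, ⟨_, hint⟩⟩, hint, ?_, ?_⟩
  · rw [hball]; exact convex_Icc _ _
  · rw [hball]; exact isCompact_Icc
  · rw [hpol, hvol]; norm_num
  · intro _
    refine ⟨?_, rfl⟩
    rintro x ⟨h1, h2⟩
    exact ⟨by simp only [Pi.neg_apply]; linarith, by simp only [Pi.neg_apply]; linarith⟩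

theorem R.iter {n : ℕ} (hn : 1 ≤ n) {g : ℝ} {S : Prop} (h : R n g S) (a b : ℕ) :
    R (n + a * n + b) (g ^ (1 + a) * 4 ^ b) S := by
  induction b with
  | zero =>
    induction a with
    | zero => simpa using h
    | succ a ih =>
      have := R.comb (by omega) hn ih h
      have e1 : n + a * n + 0 + n = n + (a + 1) * n + 0 := by ring
      have e2 : g ^ (1 + a) * 4 ^ 0 * g = g ^ (1 + (a + 1)) * 4 ^ 0 := by ring
      rw [e1, e2] at this
      exact this
  | succ b ih =>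
    have := R.comb (by omega) le_rfl ih (R.seg S)
    have e2 : g ^ (1 + a) * 4 ^ b * 4 = g ^ (1 + a) * 4 ^ (b + 1) := by ring
    rw [e2] at this
    exact this

end P248
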