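import Mathlib

/-! P248: the limit argument for joins. -/

namespace P248

open scoped Nat

theorem pow_le_fact_exp (N : ℕ) :
    ((N : ℝ) + 1) ^ (N + 1) ≤ ((N : ℝ) + 1) * (Real.exp 1 ^ (N + 1) * (N ! : ℝ)) := by
  have h := Real.pow_div_factorial_le_exp (x := (N : ℝ) + 1) (by positivity) N
  rw [div_le_iff₀ (by positivity)] at h
  have e : Real.exp ((N : ℝ) + 1) = Real.exp 1 ^ (N + 1) := by
    rw [← Real.exp_nat_mul]
    congr 1
    push_cast
    ring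
  rw [e] at h
  rw [pow_succ]
  calc ((N : ℝ) + 1) ^ N * ((N : ℝ) + 1)
      ≤ (Real.exp 1 ^ (N + 1) * (N ! : ℝ)) * ((N : ℝ) + 1) :=
        mul_le_mul_of_nonneg_right h (by positivity)
    _ = _ := by ring

theorem fact_exp_le (n : ℕ) : Real.exp 1 ^ n * (n ! : ℝ) ≤ ((n : ℝ) + 1) ^ (n + 1) := by
  induction n with
  | zero => simp
  | succ n ih =>
    have h1 : ((n : ℝ) + 1) / ((n : ℝ) + 2) ≤ Real.exp (-(1 / ((n : ℝ) + 2))) := by
      have := Real.add_one_le_exp (-(1 / ((n : ℝ) + 2)))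
      have e : -(1 / ((n : ℝ) + 2)) + 1 = ((n : ℝ) + 1) / ((n : ℝ) + 2) := by
        field_simp
        ring
      rwa [e] at this
    have h2 : (((n : ℝ) + 1) / ((n : ℝ) + 2)) ^ (n + 2) ≤ Real.exp (-1) := by
      have := pow_le_pow_left₀ (by positivity) h1 (n + 2)
      rw [← Real.exp_nat_mul] at this
      refine this.trans (le_of_eq ?_)
      congr 1
      push_cast
      field_simp
    rw [div_pow, div_le_iff₀ (by positivity), Real.exp_neg] at h2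
    have h3 : Real.exp 1 * ((n : ℝ) + 1) ^ (n + 2) ≤ ((n : ℝ) + 2) ^ (n + 2) := by
      have he : 0 < Real.exp 1 := Real.exp_pos 1
      calc Real.exp 1 * ((n : ℝ) + 1) ^ (n + 2)
          ≤ Real.exp 1 * ((Real.exp 1)⁻¹ * ((n : ℝ) + 2) ^ (n + 2)) :=
            mul_le_mul_of_nonneg_left h2 he.le
        _ = _ := by field_simp
    have e1 : (((n + 1)! : ℕ) : ℝ) = ((n : ℝ) + 1) * (n ! : ℝ) := by
      rw [Nat.factorial_succ]; push_cast; ring
    have e2 : (((n + 1 : ℕ) : ℝ) + 1) = (n : ℝ) + 2 := by push_cast; ring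
    rw [e1, e2]
    calc Real.exp 1 ^ (n + 1) * (((n : ℝ) + 1) * (n ! : ℝ))
        = Real.exp 1 * ((n : ℝ) + 1) * (Real.exp 1 ^ n * (n ! : ℝ)) := by ring
      _ ≤ Real.exp 1 * ((n : ℝ) + 1) * ((n : ℝ) + 1) ^ (n + 1) :=
          mul_le_mul_of_nonneg_left ih (by positivity)
      _ = Real.exp 1 * ((n : ℝ) + 1) ^ (n + 2) := by ring
      _ ≤ _ := h3

/-- the value at the simplex is at least `e^n / n!` -/
theorem simplex_lower (n : ℕ) :
    Real.exp 1 ^ n / (n ! : ℝ) ≤ ((n : ℝ) + 1) ^ (n + 1) / (n ! : ℝ) ^ 2 := by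
  have hf : (0 : ℝ) < (n ! : ℝ) := by exact_mod_cast Nat.factorial_pos n
  rw [div_le_div_iff₀ hf (by positivity)]
  have := mul_le_mul_of_nonneg_right (fact_exp_le n) hf.le
  calc Real.exp 1 ^ n * (n ! : ℝ) ^ 2 = Real.exp 1 ^ n * (n ! : ℝ) * (n ! : ℝ) := by ring
    _ ≤ _ := this

/-- limit argument -/
theorem limit_rho (n : ℕ) (ρ : ℝ) (hρ0 : 0 ≤ ρ)
    (h : ∀ ε : ℝ, 0 < ε → ∀ N0 : ℕ, ∃ N ≥ N0, (Real.exp 1 - ε) ^ N * (N ! : ℝ)
      ≤ ρ ^ ((N + 1) / (n + 1)) * ((N : ℝ) + 1) ^ (N + 1)) : 1 ≤ ρ := by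
  by_contra hcon
  push Not at hcon
  set q : ℝ := (1 + ρ) / 2 with hq
  have hq0 : 0 < q := by rw [hq]; linarith
  have hq1 : q < 1 := by rw [hq]; linarith
  have hρq : ρ < q := by rw [hq]; linarith
  have hd : (0 : ℝ) < (n : ℝ) + 1 := by positivity
  set c : ℝ := 1 - (1 - q) / ((n : ℝ) + 1) with hc
  have hfrac : (1 - q) / ((n : ℝ) + 1) < 1 := by
    rw [div_lt_one hd]
    have : (0 : ℝ) ≤ n := Nat.cast_nonneg n
    linarith
  have hfrac0 : 0 < (1 - q) / ((n : ℝ) + 1) := div_pos (by linarith) hd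
  have hc0 : 0 < c := by rw [hc]; linarith
  have hc1 : c < 1 := by rw [hc]; linarith
  have hcd : q ≤ c ^ (n + 1) := by
    have := one_add_mul_le_pow (a := -((1 - q) / ((n : ℝ) + 1))) (by linarith) (n + 1)
    have e1 : 1 + -((1 - q) / ((n : ℝ) + 1)) = c := by rw [hc]; ring
    have e2 : 1 + ((n + 1 : ℕ) : ℝ) * -((1 - q) / ((n : ℝ) + 1)) = q := by
      push_cast
      field_simp
      ring
    rw [e1, e2] at this
    exact this
  set x : ℝ := ρ / q with hx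
  have hx0 : 0 ≤ x := div_nonneg hρ0 hq0.le
  have hx1 : x < 1 := by rw [hx, div_lt_one hq0]; exact hρq
  have hlim : Filter.Tendsto (fun m : ℕ => ((m : ℝ) * x ^ m + x ^ m) * (((n : ℝ) + 1) * Real.exp 1))
      Filter.atTop (nhds ((0 + 0) * (((n : ℝ) + 1) * Real.exp 1))) :=
    ((tendsto_self_mul_const_pow_of_lt_one hx0 hx1).add
      (tendsto_pow_atTop_nhds_zero_of_lt_one hx0 hx1)).mul_const _
  rw [add_zero, zero_mul] at hlim
  have hev := hlim.eventually (gt_mem_nhds hq0)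
  rw [Filter.eventually_atTop] at hev
  obtain ⟨M, hM⟩ := hev
  have hε : 0 < Real.exp 1 * (1 - c) := mul_pos (Real.exp_pos 1) (by linarith)
  obtain ⟨N, hN, hNle⟩ := h _ hε (M * (n + 1))
  set m : ℕ := (N + 1) / (n + 1) with hm
  have hmM : M ≤ m := by
    rw [hm, Nat.le_div_iff_mul_le (Nat.succ_pos n)]
    exact le_trans hN (Nat.le_succ N)
  have hNm : N + 1 ≤ (m + 1) * (n + 1) := by
    have := Nat.lt_succ_iff.mp (Nat.lt_succ_of_lt (Nat.lt_mul_div_succ (N + 1) (Nat.succ_pos n)))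
    rw [hm]
    calc N + 1 ≤ (n + 1) * ((N + 1) / (n + 1) + 1) := by
          exact (Nat.lt_mul_div_succ (N + 1) (Nat.succ_pos n)).le
      _ = _ := by ring
  have e1 : Real.exp 1 - Real.exp 1 * (1 - c) = Real.exp 1 * c := by ring
  rw [e1, mul_pow] at hNle
  have hf : (0 : ℝ) < (N ! : ℝ) := by exact_mod_cast Nat.factorial_pos N
  have heN : (0 : ℝ) < Real.exp 1 ^ N := by positivity
  have h1 : Real.exp 1 ^ N * c ^ N * (N ! : ℝ)
      ≤ ρ ^ m * (((N : ℝ) + 1) * (Real.exp 1 ^ (N + 1) * (N ! : ℝ))) :=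
    hNle.trans (mul_le_mul_of_nonneg_left (pow_le_fact_exp N) (by positivity))
  have h2 : c ^ N ≤ ρ ^ m * (((N : ℝ) + 1) * Real.exp 1) := by
    have e2 : Real.exp 1 ^ N * c ^ N * (N ! : ℝ) = (Real.exp 1 ^ N * (N ! : ℝ)) * c ^ N := by ring
    have e3 : ρ ^ m * (((N : ℝ) + 1) * (Real.exp 1 ^ (N + 1) * (N ! : ℝ)))
        = (Real.exp 1 ^ N * (N ! : ℝ)) * (ρ ^ m * (((N : ℝ) + 1) * Real.exp 1)) := by
      rw [pow_succ]; ring
    rw [e2, e3] at h1
    exact le_of_mul_le_mul_left h1 (by positivity)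
  have h3 : q ^ (m + 1) ≤ c ^ N := by
    calc q ^ (m + 1) ≤ (c ^ (n + 1)) ^ (m + 1) := pow_le_pow_left₀ hq0.le hcd _
      _ = c ^ ((n + 1) * (m + 1)) := by rw [← pow_mul]
      _ ≤ c ^ N := pow_le_pow_of_le_one hc0.le hc1.le (by nlinarith)
  have h4 : ((N : ℝ) + 1) ≤ ((m : ℝ) + 1) * ((n : ℝ) + 1) := by exact_mod_cast hNm
  have h5 : q ^ (m + 1) ≤ ρ ^ m * ((((m : ℝ) + 1) * ((n : ℝ) + 1)) * Real.exp 1) := by
    refine h3.trans (h2.trans ?_)
    apply mul_le_mul_of_nonneg_left _ (by positivity)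
    exact mul_le_mul_of_nonneg_right h4 (Real.exp_pos 1).le
  have h6 := hM m hmM
  have hxm : x ^ m * q ^ m = ρ ^ m := by
    rw [hx, div_pow, div_mul_cancel₀ _ (pow_pos hq0 m).ne']
  have h7 : q ^ m * q ≤ q ^ m * (((m : ℝ) * x ^ m + x ^ m) * (((n : ℝ) + 1) * Real.exp 1)) := by
    rw [← pow_succ]
    refine h5.trans (le_of_eq ?_)
    rw [← hxm]
    ring
  have h8 := le_of_mul_le_mul_left h7 (pow_pos hq0 m)
  linarith

end P248
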