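import Vale.Agent.P248.JMain
import Vale.Agent.P248.LimJoin

/-! P248: the general Mahler inequality and the exponential constant `e`. -/

namespace P248

open MeasureTheory Set Filter Topology
open scoped Pointwise Nat ENNReal
open P254 (IsBody vol)

/-- the sharp inequality of Q2 in all dimensions is equivalent to the lower bound
`(e - ε)^N / N!` in infinitely many dimensions, for each `ε` -/
theorem q2_iff_exp : (∀ n : ℕ, 1 ≤ n → Q2S n) ↔
    ∀ ε : ℝ, 0 < ε → ε < Real.exp 1 → ∀ N₀ : ℕ, ∃ N ≥ N₀, ∀ K : Set (Fin N → ℝ), IsBody K →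
      (Real.exp 1 - ε) ^ N / (N ! : ℝ) ≤ VP K := by
  constructor
  · intro h ε h0 h1 N₀
    refine ⟨N₀ + 1, by omega, fun K hK => ?_⟩
    refine le_trans ?_ (h (N₀ + 1) (by omega) K hK)
    refine le_trans ?_ (simplex_lower (N₀ + 1))
    gcongr
    linarith
  · intro h n hn K hK
    refine le_VP hK fun z hz => ?_
    have hr0 : 0 ≤ vol K * vol (pol K z) / PS n := div_nonneg (vp_nonneg K z) (PS_pos n).le
    have h5 : 1 ≤ vol K * vol (pol K z) / PS n := by
      refine limit_rho n _ hr0 fun ε hε N0 => ?_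
      rcases lt_or_ge ε (Real.exp 1) with hlt | hge
      · obtain ⟨N, hN, hall⟩ := h ε hε hlt (max N0 n)
        have hN0 : N0 ≤ N := (le_max_left _ _).trans hN
        have hNn : n ≤ N := (le_max_right _ _).trans hN
        refine ⟨N, hN0, ?_⟩
        have hq : (n + 1) * ((N + 1) / (n + 1)) + (N + 1) % (n + 1) = N + 1 := Nat.div_add_mod _ _
        have hm : 1 ≤ (N + 1) / (n + 1) := (Nat.one_le_div_iff (by omega)).2 (by omega)
        obtain ⟨M, hM, hle⟩ : ∃ M : Set (Fin N → ℝ), IsBody M ∧
            VP M ≤ (vol K * vol (pol K z) / PS n) ^ ((N + 1) / (n + 1)) * PS N := by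
          have hmn : n + 1 ≤ (n + 1) * ((N + 1) / (n + 1)) := Nat.le_mul_of_pos_right _ hm
          have e : N = (N + 1) / (n + 1) * (n + 1) - 1 + (N + 1) % (n + 1) := by
            rw [Nat.mul_comm ((N + 1) / (n + 1)) (n + 1)]
            omega
          have hg : ∀ m j N : ℕ, 1 ≤ m → N = m * (n + 1) - 1 + j → ∃ M : Set (Fin N → ℝ),
              IsBody M ∧ VP M ≤ (vol K * vol (pol K z) / PS n) ^ m * PS N := by
            rintro m j _ hm rfl
            exact q2_amplify hK m j hm z hz
          exact hg _ _ N hm e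
        have h1 := (hall M hM).trans hle
        have hf : (0 : ℝ) < (N ! : ℝ) := by exact_mod_cast Nat.factorial_pos N
        unfold PS at h1
        unfold PS
        rw [← mul_div_assoc, div_le_div_iff₀ hf (by positivity)] at h1
        have h2 : ((Real.exp 1 - ε) ^ N * (N ! : ℝ)) * (N ! : ℝ) ≤
            ((vol K * vol (pol K z) / (((n : ℝ) + 1) ^ (n + 1) / (n ! : ℝ) ^ 2)) ^
              ((N + 1) / (n + 1)) * ((N : ℝ) + 1) ^ (N + 1)) * (N ! : ℝ) := by
          refine le_trans (le_of_eq ?_) h1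
          ring
        exact le_of_mul_le_mul_right h2 hf
      · refine ⟨2 * N0 + 1, by omega, ?_⟩
        have h1 : (Real.exp 1 - ε) ^ (2 * N0 + 1) ≤ 0 :=
          Odd.pow_nonpos ⟨N0, rfl⟩ (by linarith)
        refine le_trans (mul_nonpos_of_nonpos_of_nonneg h1 (by positivity)) ?_
        positivity
    rwa [one_le_div (PS_pos n)] at h5

end P248
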