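import Vale.Agent.P248.Join
import Vale.Agent.P248.Iter

/-! P248: iterated joins. -/

namespace P248

open MeasureTheory Set Filter Topology
open scoped Pointwise Nat ENNReal
open P254 (IsBody vol)

variable {ι κ : Type} [Fintype ι] [DecidableEq ι] [Fintype κ] [DecidableEq κ]

/-- there is a body of dimension `N` and an interior point with volume product `r` times that of
the simplex -/
def HV (N : ℕ) (r : ℝ) : Prop :=
  ∃ (ι : Type) (_ : Fintype ι) (_ : DecidableEq ι) (M : Set (ι → ℝ)) (w : ι → ℝ),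
    Fintype.card ι = N ∧ IsBody M ∧ w ∈ interior M ∧
    vol M * vol (pol M w) * ((N ! : ℝ) ^ 2 / ((N : ℝ) + 1) ^ (N + 1)) = r

/-- translate -/
def shift (M : Set (ι → ℝ)) (w : ι → ℝ) : Set (ι → ℝ) := (fun x => x + w) ⁻¹' M

theorem shift_props {M : Set (ι → ℝ)} {w : ι → ℝ} (hM : IsBody M) (hw : w ∈ interior M) :
    IsBody (shift M w) ∧ (0 : ι → ℝ) ∈ interior (shift M w) ∧ vol (shift M w) = vol M ∧
      pol (shift M w) 0 = pol M w := by
  have hint : (0 : ι → ℝ) ∈ interior (shift M w) := by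
    rw [mem_interior_iff_mem_nhds]
    have hc : ContinuousAt (fun x : ι → ℝ => x + w) 0 := by fun_prop
    have hn : M ∈ 𝓝 ((0 : ι → ℝ) + w) := by
      rw [zero_add]
      exact mem_interior_iff_mem_nhds.mp hw
    exact hc.eventually hn
  have himg : shift M w = (fun x => x - w) '' M := by
    ext x
    constructor
    · intro hx
      exact ⟨x + w, hx, by simp⟩
    · rintro ⟨y, hy, rfl⟩
      show y - w + w ∈ M
      rw [sub_add_cancel]
      exact hy
  refine ⟨⟨?_, ?_, ⟨_, hint⟩⟩, hint, ?_, ?_⟩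
  · intro x hx y hy a b ha hb hab
    show a • x + b • y + w ∈ M
    have h := hM.conv hx hy ha hb hab
    have e : a • (x + w) + b • (y + w) = a • x + b • y + w := by
      have : a • (x + w) + b • (y + w) = a • x + b • y + (a + b) • w := by module
      rw [this, hab, one_smul]
    rw [← e]
    exact h
  · rw [himg]
    exact hM.comp.image (by fun_prop)
  · unfold vol shift
    rw [measure_preimage_add_right]
  · ext y
    constructor
    · intro h x hx
      have := h (x - w) (by show x - w + w ∈ M; rw [sub_add_cancel]; exact hx)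
      simpa using this
    · intro h x hx
      have := h (x + w) hx
      simpa using this

theorem HV.join {N M : ℕ} {r s : ℝ} (h1 : HV N r) (h2 : HV M s) : HV (N + M + 1) (r * s) := by
  obtain ⟨ι, _, _, K, z, c1, b1, i1, e1⟩ := h1
  obtain ⟨κ, _, _, L, w, c2, b2, i2, e2⟩ := h2
  obtain ⟨b1', i1', v1, p1⟩ := shift_props b1 i1
  obtain ⟨b2', i2', v2, p2⟩ := shift_props b2 i2
  have hN : (0 : ℝ) < (N : ℝ) + 1 := by positivity
  have hM : (0 : ℝ) < (M : ℝ) + 1 := by positivity
  have hNM : (0 : ℝ) < (N : ℝ) + M + 2 := by positivity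
  have ht0 : 0 < ((M : ℝ) + 1) / (N + M + 2) := by positivity
  have ht1 : ((M : ℝ) + 1) / (N + M + 2) < 1 := by
    rw [div_lt_one hNM]; linarith
  have h1t : 1 - ((M : ℝ) + 1) / (N + M + 2) = ((N : ℝ) + 1) / (N + M + 2) := by
    field_simp
    ring
  obtain ⟨jb, ji, jv, jp⟩ := join_main b1' b2' i1' i2' ht0 ht1
  refine ⟨(ι ⊕ κ) ⊕ Fin 1, inferInstance, inferInstance, J (shift K z) (shift L w), _, ?_, jb,
    ji, ?_⟩
  · simp [c1, c2]
  · rw [jv, jp, v1, v2, p1, p2, ← e1, ← e2, c1, c2, h1t, div_pow, div_pow]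
    have hf : ((N + M + 1)! : ℝ) ≠ 0 := by positivity
    have hcast : (((N + M + 1 : ℕ) : ℝ) + 1) = (N : ℝ) + M + 2 := by push_cast; ring
    have hpow : ((N : ℝ) + M + 2) ^ (N + M + 1 + 1)
        = ((N : ℝ) + M + 2) ^ (N + 1) * ((N : ℝ) + M + 2) ^ (M + 1) := by
      rw [← pow_add]; congr 1; ring
    rw [hcast, hpow]
    field_simp

theorem HV.point : HV 0 1 := by
  refine ⟨Fin 0, inferInstance, inferInstance, univ, 0, by simp,
    ⟨convex_univ, isCompact_univ, by simp⟩, by simp, ?_⟩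
  have h1 : pol (univ : Set (Fin 0 → ℝ)) 0 = univ := by
    ext y
    simp [pol]
  have h2 : vol (univ : Set (Fin 0 → ℝ)) = 1 := by
    unfold vol
    rw [volume_pi, Measure.pi_univ]
    simp
  rw [h1, h2]
  simp

theorem HV.pyr {N : ℕ} {r : ℝ} (h : HV N r) (j : ℕ) : HV (N + j) r := by
  induction j with
  | zero => simpa using h
  | succ j ih =>
    have := ih.join HV.point
    rwa [mul_one] at this

theorem HV.pow {n : ℕ} {r : ℝ} (h : HV n r) (m : ℕ) : HV ((m + 1) * (n + 1) - 1) (r ^ (m + 1)) := by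
  induction m with
  | zero => simpa using h
  | succ m ih =>
    have := ih.join h
    have e : (m + 1) * (n + 1) - 1 + n + 1 = (m + 1 + 1) * (n + 1) - 1 := by
      have h1 : 1 ≤ (m + 1) * (n + 1) := Nat.succ_le_of_lt (by positivity)
      have h2 : (m + 1 + 1) * (n + 1) = (m + 1) * (n + 1) + (n + 1) := by ring
      omega
    rw [e] at this
    rw [pow_succ]
    exact this

theorem HV.fin {N : ℕ} {r : ℝ} (h : HV N r) :
    ∃ (M : Set (Fin N → ℝ)) (w : Fin N → ℝ), IsBody M ∧ w ∈ interior M ∧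
      vol M * vol (pol M w) * ((N ! : ℝ) ^ 2 / ((N : ℝ) + 1) ^ (N + 1)) = r := by
  obtain ⟨ι, _, _, K, z, c1, b1, i1, e1⟩ := h
  have e : ι ≃ Fin N := Fintype.equivFinOfCardEq c1
  refine ⟨reix e K, fun k => z (e.symm k), reix_body e b1, reix_int e i1, ?_⟩
  rw [pol_reix, vol_reix, vol_reix, e1]

end P248
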