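import Mathlib
import Vale.Agent.P254.Cone

/-! P248: joins and their polars. -/

namespace P248

open MeasureTheory Set
open scoped Pointwise Nat
open P254

variable {ι κ : Type} [Fintype ι] [DecidableEq ι] [Fintype κ] [DecidableEq κ]

/-- polar set -/
def polar (K : Set (ι → ℝ)) : Set (ι → ℝ) := {y | ∀ x ∈ K, ∑ i, y i * x i ≤ 1}

/-- join -/
def join (K : Set (ι → ℝ)) (L : Set (κ → ℝ)) : Set (ι ⊕ (κ ⊕ Fin 1) → ℝ) :=
  freeSum K (cone L)

theorem mem_join {K : Set (ι → ℝ)} {L : Set (κ → ℝ)} (hK : IsBody K) (h0 : (0 : ι → ℝ) ∈ K)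
    (z : ι ⊕ (κ ⊕ Fin 1) → ℝ) : z ∈ join K L ↔
      0 ≤ z (Sum.inr (Sum.inr 0)) ∧ z (Sum.inr (Sum.inr 0)) ≤ 1 ∧
      (fun i => z (Sum.inl i)) ∈ (1 - z (Sum.inr (Sum.inr 0))) • K ∧
      (fun j => z (Sum.inr (Sum.inl j))) ∈ z (Sum.inr (Sum.inr 0)) • L := by
  constructor
  · rintro ⟨s, t, hs, ht, hst, h1, ⟨v, ⟨hv0, hv1, ⟨y, hy, hyv⟩⟩, hvz⟩⟩
    have e0 : t * v (Sum.inr 0) = z (Sum.inr (Sum.inr 0)) := by
      simpa using congrFun hvz (Sum.inr 0)
    have e1 : t * v (Sum.inr 0) ≤ t := mul_le_of_le_one_right ht hv1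
    have e2 : 0 ≤ t * v (Sum.inr 0) := mul_nonneg ht hv0
    refine ⟨by linarith, by linarith, smul_mono2 hK h0 hs (by linarith) h1, ⟨y, hy, ?_⟩⟩
    funext j
    have e3 := congrFun hvz (Sum.inl j)
    have e4 := congrFun hyv j
    simp only [Pi.smul_apply, smul_eq_mul] at e3 e4 ⊢
    rw [← e0, ← e3, ← e4]
    ring
  · rintro ⟨h1, h2, h3, ⟨y, hy, hyz⟩⟩
    refine ⟨1 - z (Sum.inr (Sum.inr 0)), z (Sum.inr (Sum.inr 0)), by linarith, h1, by ring, h3,
      ⟨Sum.elim y (fun _ => 1), ⟨by simp, by simp, ?_⟩, ?_⟩⟩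
    · simpa using hy
    · funext j
      rcases j with j | j
      · simpa using congrFun hyz j
      · rw [Subsingleton.elim j 0]
        simp

theorem vol_diag (c b : ι → ℝ) (S : Set (ι → ℝ)) :
    vol ((fun x => fun i => c i * x i + b i) '' S) = |∏ i, c i| * vol S := by
  have h : (fun x : ι → ℝ => fun i => c i * x i + b i) '' S
      = (fun y => y + b) '' ((Matrix.toLin' (Matrix.diagonal c)) '' S) := by
    rw [image_image]
    apply image_congr
    intro x _
    funext i
    simp [Matrix.mulVec_diagonal]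
  unfold vol
  rw [h, image_add_right, measure_preimage_add_right, Measure.addHaar_image_linearMap,
    LinearMap.det_toLin', Matrix.det_diagonal, ENNReal.toReal_mul,
    ENNReal.toReal_ofReal (abs_nonneg _)]

theorem vol_cone [Nonempty ι] {K : Set (ι → ℝ)} (hK : IsBody K) (h0 : (0 : ι → ℝ) ∈ K) :
    vol (cone K) = vol K / ((Fintype.card ι : ℝ) + 1) := by
  have e : (fun x : ι ⊕ Fin 1 → ℝ => refl1 ι x + apx ι)
      = fun x => fun i => (Sum.elim (fun _ => 1) (fun _ => -1) : ι ⊕ Fin 1 → ℝ) i * x i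
        + apx ι i := by
    funext x i
    rcases i with i | i <;> simp [refl1, apx]
  rw [cone_eq hK h0, e, vol_diag, vol_freeSum hK h0 (T_body 1) ⟨fun i => le_rfl, by simp⟩, vol_T1]
  have e2 : |∏ i, (Sum.elim (fun _ => 1) (fun _ => -1) : ι ⊕ Fin 1 → ℝ) i| = 1 := by
    rw [Fintype.prod_sum_type]
    simp
  rw [e2]
  simp only [Fintype.card_fin, Nat.factorial_one]
  rw [Nat.factorial_succ]
  push_cast
  have : ((Fintype.card ι)! : ℝ) ≠ 0 := by positivity
  field_simp

theorem mem_smul_polar {K : Set (ι → ℝ)} (h0 : (0 : ι → ℝ) ∈ interior K) {r : ℝ} (hr : 0 ≤ r)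
    (u : ι → ℝ) : u ∈ r • polar K ↔ ∀ x ∈ K, ∑ i, u i * x i ≤ r := by
  rcases hr.eq_or_lt with h | h
  · rw [← h]
    constructor
    · rintro ⟨y, _, rfl⟩ x _
      simp
    · intro hu
      have hu0 : u = 0 := by
        have hcont : Continuous fun t : ℝ => t • u := by fun_prop
        have hmem : ∀ᶠ t in nhds (0 : ℝ), t • u ∈ interior K := by
          apply hcont.continuousAt.eventually_mem
          simpa using isOpen_interior.mem_nhds h0
        obtain ⟨ε, hε, hball⟩ := Metric.eventually_nhds_iff.mp hmem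
        have hx : (ε / 2) • u ∈ interior K := by
          apply hball
          rw [Real.dist_eq, sub_zero, abs_of_pos (half_pos hε)]
          linarith
        have h1 := hu _ (interior_subset hx)
        have h2 : ∑ i, u i * ((ε / 2) • u) i = (ε / 2) * ∑ i, u i ^ 2 := by
          rw [Finset.mul_sum]
          refine Finset.sum_congr rfl fun i _ => ?_
          simp only [Pi.smul_apply, smul_eq_mul]
          ring
        rw [h2] at h1
        have h3 : ∑ i, u i ^ 2 ≤ 0 := by
          by_contra hcon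
          rw [not_le] at hcon
          have := mul_pos (half_pos hε) hcon
          linarith
        have h4 : ∑ i, u i ^ 2 = 0 := le_antisymm h3 (Finset.sum_nonneg fun i _ => sq_nonneg _)
        funext i
        have := (Finset.sum_eq_zero_iff_of_nonneg (fun i _ => sq_nonneg (u i))).1 h4 i
          (Finset.mem_univ i)
        exact pow_eq_zero_iff (by norm_num) |>.1 this
      rw [hu0]
      exact ⟨0, fun x _ => by simp, by simp⟩
  · rw [mem_smul_set_iff_inv_smul_mem₀ h.ne']
    have e : ∀ x : ι → ℝ, ∑ i, (r⁻¹ • u) i * x i = r⁻¹ * ∑ i, u i * x i := by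
      intro x
      rw [Finset.mul_sum]
      refine Finset.sum_congr rfl fun i _ => ?_
      simp only [Pi.smul_apply, smul_eq_mul]
      ring
    constructor
    · intro hu x hx
      have := hu x hx
      rw [e, inv_mul_le_iff₀ h] at this
      linarith
    · intro hu x hx
      rw [e, inv_mul_le_iff₀ h]
      have := hu x hx
      linarith

theorem vol_join [Nonempty ι] [Nonempty κ] {K : Set (ι → ℝ)} {L : Set (κ → ℝ)}
    (hK : IsBody K) (h0 : (0 : ι → ℝ) ∈ K) (hL : IsBody L) (h0' : (0 : κ → ℝ) ∈ L) :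
    vol (join K L) = ((Fintype.card ι)! * (Fintype.card κ)! /
      (Fintype.card ι + Fintype.card κ + 1)! : ℝ) * (vol K * vol L) := by
  unfold join
  have h := vol_freeSum hK h0 (cone_body hL h0') (zero_mem_cone h0')
  rw [h, vol_cone hL h0']
  have e : Fintype.card (κ ⊕ Fin 1) = Fintype.card κ + 1 := by simp
  rw [e]
  have e2 : Fintype.card ι + (Fintype.card κ + 1) = Fintype.card ι + Fintype.card κ + 1 := by ring
  rw [e2, Nat.factorial_succ (Fintype.card κ)]
  push_cast
  field_simp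

/-- the center `(0, 0, τ)` -/
def ctr (ι κ : Type) (τ : ℝ) : ι ⊕ (κ ⊕ Fin 1) → ℝ :=
  Sum.elim (fun _ => 0) (Sum.elim (fun _ => 0) (fun _ => τ))

/-- coefficients of the affine map -/
noncomputable def cf (ι κ : Type) (τ : ℝ) : ι ⊕ (κ ⊕ Fin 1) → ℝ :=
  Sum.elim (fun _ => 1 / (1 - τ)) (Sum.elim (fun _ => 1 / τ) (fun _ => -(1 / (τ * (1 - τ)))))

noncomputable def bf (ι κ : Type) (τ : ℝ) : ι ⊕ (κ ⊕ Fin 1) → ℝ :=
  Sum.elim (fun _ => 0) (Sum.elim (fun _ => 0) (fun _ => 1 / (1 - τ)))

theorem polar_join {K : Set (ι → ℝ)} {L : Set (κ → ℝ)} (hK : IsBody K)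
    (h0 : (0 : ι → ℝ) ∈ interior K) (h0' : (0 : κ → ℝ) ∈ interior L)
    (hKp : IsBody (polar K)) {τ : ℝ} (hτ : 0 < τ) (hτ1 : τ < 1) :
    polar ((fun z => z - ctr ι κ τ) '' join K L)
      = (fun x => fun i => cf ι κ τ i * x i + bf ι κ τ i) '' join (polar K) (polar L) := by
  have h0K := interior_subset h0
  have h0L := interior_subset h0'
  have hτ' : 0 < 1 - τ := by linarith
  have h0P : (0 : ι → ℝ) ∈ polar K := fun x _ => by simp
  ext y
  set w := y (Sum.inr (Sum.inr 0)) with hw
  set u : ι → ℝ := fun i => y (Sum.inl i) with hu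
  set v : κ → ℝ := fun j => y (Sum.inr (Sum.inl j)) with hv
  have hpair : ∀ z : ι ⊕ (κ ⊕ Fin 1) → ℝ, ∑ i, y i * (z - ctr ι κ τ) i
      = ∑ i, u i * z (Sum.inl i) + ∑ j, v j * z (Sum.inr (Sum.inl j))
        + w * (z (Sum.inr (Sum.inr 0)) - τ) := by
    intro z
    rw [Fintype.sum_sum_type, Fintype.sum_sum_type]
    simp [ctr, hu, hv, hw]
    ring
  -- characterization of the polar
  have key : y ∈ polar ((fun z => z - ctr ι κ τ) '' join K L) ↔
      (0 ≤ 1 + τ * w ∧ 0 ≤ 1 - (1 - τ) * w ∧ (∀ x ∈ K, ∑ i, u i * x i ≤ 1 + τ * w) ∧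
        ∀ x ∈ L, ∑ i, v i * x i ≤ 1 - (1 - τ) * w) := by
    constructor
    · intro hy
      have hA : ∀ x ∈ K, ∑ i, u i * x i ≤ 1 + τ * w := by
        intro x hx
        have hz : (Sum.elim x (Sum.elim 0 0) : ι ⊕ (κ ⊕ Fin 1) → ℝ) ∈ join K L := by
          rw [mem_join hK h0K]
          refine ⟨by simp, by simp, ?_, ⟨0, h0L, ?_⟩⟩
          · simpa using hx
          · funext j; simp
        have := hy _ ⟨_, hz, rfl⟩
        rw [hpair] at this
        simp at this
        linarith
      have hB : ∀ x ∈ L, ∑ i, v i * x i ≤ 1 - (1 - τ) * w := by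
        intro x hx
        have hz : (Sum.elim 0 (Sum.elim x (fun _ => 1)) : ι ⊕ (κ ⊕ Fin 1) → ℝ) ∈ join K L := by
          rw [mem_join hK h0K]
          refine ⟨by simp, by simp, ⟨0, h0K, ?_⟩, ?_⟩
          · funext j; simp
          · simpa using hx
        have := hy _ ⟨_, hz, rfl⟩
        rw [hpair] at this
        simp at this
        linarith
      refine ⟨by simpa using hA 0 h0K, by simpa using hB 0 h0L, hA, hB⟩
    · rintro ⟨h1, h2, hA, hB⟩
      rintro _ ⟨z, hz, rfl⟩
      rw [mem_join hK h0K] at hz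
      obtain ⟨hl0, hl1, ⟨x, hx, hxz⟩, ⟨x', hx', hxz'⟩⟩ := hz
      simp only
      rw [hpair]
      set lam := z (Sum.inr (Sum.inr 0)) with hlam
      have e1 : ∑ i, u i * z (Sum.inl i) = (1 - lam) * ∑ i, u i * x i := by
        rw [Finset.mul_sum]
        refine Finset.sum_congr rfl fun i _ => ?_
        have := congrFun hxz i
        simp only [Pi.smul_apply, smul_eq_mul] at this
        rw [← this]; ring
      have e2 : ∑ j, v j * z (Sum.inr (Sum.inl j)) = lam * ∑ j, v j * x' j := by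
        rw [Finset.mul_sum]
        refine Finset.sum_congr rfl fun i _ => ?_
        have := congrFun hxz' i
        simp only [Pi.smul_apply, smul_eq_mul] at this
        rw [← this]; ring
      rw [e1, e2]
      have f1 := mul_le_mul_of_nonneg_left (hA x hx) (by linarith : 0 ≤ 1 - lam)
      have f2 := mul_le_mul_of_nonneg_left (hB x' hx') hl0
      nlinarith
  rw [key]
  constructor
  · rintro ⟨h1, h2, hA, hB⟩
    refine ⟨fun i => Sum.elim (fun i => (1 - τ) * u i) (Sum.elim (fun j => τ * v j)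
      (fun _ => τ * (1 - (1 - τ) * w))) i, ?_, ?_⟩
    · rw [mem_join hKp h0P]
      simp only [Sum.elim_inr, Sum.elim_inl]
      have g1 : 1 - τ * (1 - (1 - τ) * w) = (1 - τ) * (1 + τ * w) := by ring
      refine ⟨mul_nonneg hτ.le h2, ?_, ?_, ?_⟩
      · have := mul_nonneg hτ'.le h1
        linarith
      · rw [g1, mem_smul_polar h0 (mul_nonneg hτ'.le h1)]
        intro x hx
        have e : ∑ i, (1 - τ) * u i * x i = (1 - τ) * ∑ i, u i * x i := by
          rw [Finset.mul_sum]
          exact Finset.sum_congr rfl fun i _ => by ring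
        rw [e]
        exact mul_le_mul_of_nonneg_left (hA x hx) hτ'.le
      · rw [mem_smul_polar h0' (mul_nonneg hτ.le h2)]
        intro x hx
        have e : ∑ i, τ * v i * x i = τ * ∑ i, v i * x i := by
          rw [Finset.mul_sum]
          exact Finset.sum_congr rfl fun i _ => by ring
        rw [e]
        exact mul_le_mul_of_nonneg_left (hB x hx) hτ.le
    · funext i
      rcases i with i | i | i
      · simp only [cf, bf, Sum.elim_inl, hu]
        field_simp
        ring
      · simp only [cf, bf, Sum.elim_inl, Sum.elim_inr, hv]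
        field_simp
        ring
      · rw [Subsingleton.elim i 0]
        simp only [cf, bf, Sum.elim_inr, hw]
        field_simp
        ring
  · rintro ⟨x, hx, hxy⟩
    rw [mem_join hKp h0P] at hx
    obtain ⟨g1, g2, g3, g4⟩ := hx
    have q1 : w = -(1 / (τ * (1 - τ))) * x (Sum.inr (Sum.inr 0)) + 1 / (1 - τ) := by
      rw [hw, ← hxy]; simp [cf, bf]
    have q2 : ∀ i, u i = 1 / (1 - τ) * x (Sum.inl i) := by
      intro i
      rw [hu, ← hxy]; simp [cf, bf]
    have q3 : ∀ j, v j = 1 / τ * x (Sum.inr (Sum.inl j)) := by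
      intro j
      rw [hv, ← hxy]; simp [cf, bf]
    set om := x (Sum.inr (Sum.inr 0)) with hom
    have r1 : 1 + τ * w = (1 - om) / (1 - τ) := by
      rw [q1]; field_simp; ring
    have r2 : 1 - (1 - τ) * w = om / τ := by
      rw [q1]; field_simp; ring
    rw [r1, r2]
    refine ⟨div_nonneg (by linarith) hτ'.le, div_nonneg g1 hτ.le, ?_, ?_⟩
    · intro z hz
      have := (mem_smul_polar h0 (by linarith : 0 ≤ 1 - om) _).1 g3 z hz
      have e : ∑ i, u i * z i = (∑ i, x (Sum.inl i) * z i) / (1 - τ) := by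
        rw [Finset.sum_div]
        exact Finset.sum_congr rfl fun i _ => by rw [q2]; ring
      rw [e]
      exact div_le_div_of_nonneg_right this hτ'.le
    · intro z hz
      have := (mem_smul_polar h0' g1 _).1 g4 z hz
      have e : ∑ i, v i * z i = (∑ i, x (Sum.inr (Sum.inl i)) * z i) / τ := by
        rw [Finset.sum_div]
        exact Finset.sum_congr rfl fun i _ => by rw [q3]; ring
      rw [e]
      exact div_le_div_of_nonneg_right this hτ.le

theorem vol_polar_join [Nonempty ι] [Nonempty κ] {K : Set (ι → ℝ)} {L : Set (κ → ℝ)}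
    (hK : IsBody K) (h0 : (0 : ι → ℝ) ∈ interior K) (h0' : (0 : κ → ℝ) ∈ interior L)
    (hKp : IsBody (polar K)) (hLp : IsBody (polar L)) {τ : ℝ} (hτ : 0 < τ) (hτ1 : τ < 1) :
    vol (polar ((fun z => z - ctr ι κ τ) '' join K L))
      = ((Fintype.card ι)! * (Fintype.card κ)! /
      (Fintype.card ι + Fintype.card κ + 1)! : ℝ) * (vol (polar K) * vol (polar L)) /
        ((1 - τ) ^ (Fintype.card ι + 1) * τ ^ (Fintype.card κ + 1)) := by
  have hτ' : 0 < 1 - τ := by linarith
  have h0P : (0 : ι → ℝ) ∈ polar K := fun x _ => by simp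
  have h0P' : (0 : κ → ℝ) ∈ polar L := fun x _ => by simp
  rw [polar_join hK h0 h0' hKp hτ hτ1, vol_diag, vol_join hKp h0P hLp h0P']
  have e : |∏ i, cf ι κ τ i| = 1 / ((1 - τ) ^ (Fintype.card ι + 1) * τ ^ (Fintype.card κ + 1)) := by
    rw [Fintype.prod_sum_type, Fintype.prod_sum_type]
    simp only [cf, Sum.elim_inl, Sum.elim_inr, Finset.prod_const, Finset.card_univ,
      Fintype.card_fin, pow_one]
    rw [abs_mul, abs_mul, abs_neg, abs_of_pos (by positivity), abs_of_pos (by positivity),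
      abs_of_pos (by positivity)]
    rw [div_pow, div_pow, one_pow, one_pow, pow_succ, pow_succ]
    field_simp
  rw [e]
  ring

end P248
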