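import Mathlib
import Vale.Agent.P248.PJoin

/-! P248: pyramids and their polars. -/

namespace P248

open MeasureTheory Set
open scoped Pointwise Nat
open P254

variable {ι κ : Type} [Fintype ι] [DecidableEq ι] [Fintype κ] [DecidableEq κ]

/-- the center `(0, τ)` -/
def ctr1 (ι : Type) (τ : ℝ) : ι ⊕ Fin 1 → ℝ := Sum.elim (fun _ => 0) (fun _ => τ)

noncomputable def cf1 (ι : Type) (τ : ℝ) : ι ⊕ Fin 1 → ℝ :=
  Sum.elim (fun _ => 1 / τ) (fun _ => -(1 / (τ * (1 - τ))))

noncomputable def bf1 (ι : Type) (τ : ℝ) : ι ⊕ Fin 1 → ℝ :=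
  Sum.elim (fun _ => 0) (fun _ => 1 / (1 - τ))

theorem polar_cone {L : Set (ι → ℝ)} (h0' : (0 : ι → ℝ) ∈ interior L)
    {τ : ℝ} (hτ : 0 < τ) (hτ1 : τ < 1) :
    polar ((fun z => z - ctr1 ι τ) '' cone L)
      = (fun x => fun i => cf1 ι τ i * x i + bf1 ι τ i) '' cone (polar L) := by
  have h0L := interior_subset h0'
  have hτ' : 0 < 1 - τ := by linarith
  ext y
  set w := y (Sum.inr 0) with hw
  set v : ι → ℝ := fun j => y (Sum.inl j) with hv
  have hpair : ∀ z : ι ⊕ Fin 1 → ℝ, ∑ i, y i * (z - ctr1 ι τ) i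
      = ∑ j, v j * z (Sum.inl j) + w * (z (Sum.inr 0) - τ) := by
    intro z
    rw [Fintype.sum_sum_type]
    simp [ctr1, hv, hw]
  -- characterization of the polar
  have key : y ∈ polar ((fun z => z - ctr1 ι τ) '' cone L) ↔
      (0 ≤ 1 + τ * w ∧ 0 ≤ 1 - (1 - τ) * w ∧
        ∀ x ∈ L, ∑ i, v i * x i ≤ 1 - (1 - τ) * w) := by
    constructor
    · intro hy
      have hA : 0 ≤ 1 + τ * w := by
        have hz : (0 : ι ⊕ Fin 1 → ℝ) ∈ cone L := zero_mem_cone h0L
        have := hy _ ⟨_, hz, rfl⟩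
        rw [hpair] at this
        simp at this
        linarith
      have hB : ∀ x ∈ L, ∑ i, v i * x i ≤ 1 - (1 - τ) * w := by
        intro x hx
        have hz : (Sum.elim x (fun _ => 1) : ι ⊕ Fin 1 → ℝ) ∈ cone L := by
          refine ⟨by simp, by simp, ?_⟩
          simpa using hx
        have := hy _ ⟨_, hz, rfl⟩
        rw [hpair] at this
        simp at this
        linarith
      refine ⟨hA, by simpa using hB 0 h0L, hB⟩
    · rintro ⟨h1, h2, hB⟩
      rintro _ ⟨z, hz, rfl⟩
      obtain ⟨hl0, hl1, ⟨x', hx', hxz'⟩⟩ := hz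
      simp only
      rw [hpair]
      set lam := z (Sum.inr 0) with hlam
      have e2 : ∑ j, v j * z (Sum.inl j) = lam * ∑ j, v j * x' j := by
        rw [Finset.mul_sum]
        refine Finset.sum_congr rfl fun i _ => ?_
        have := congrFun hxz' i
        simp only [Pi.smul_apply, smul_eq_mul] at this
        rw [← this]; ring
      rw [e2]
      have f2 := mul_le_mul_of_nonneg_left (hB x' hx') hl0
      have f1 := mul_nonneg (by linarith : 0 ≤ 1 - lam) h1
      nlinarith
  rw [key]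
  constructor
  · rintro ⟨h1, h2, hB⟩
    refine ⟨fun i => Sum.elim (fun j => τ * v j) (fun _ => τ * (1 - (1 - τ) * w)) i, ?_, ?_⟩
    · have g1 : 1 - τ * (1 - (1 - τ) * w) = (1 - τ) * (1 + τ * w) := by ring
      refine ⟨mul_nonneg hτ.le h2, ?_, ?_⟩
      · simp only [Sum.elim_inr]
        have := mul_nonneg hτ'.le h1
        linarith
      · simp only [Sum.elim_inr, Sum.elim_inl]
        rw [mem_smul_polar h0' (mul_nonneg hτ.le h2)]
        intro x hx
        have e : ∑ i, τ * v i * x i = τ * ∑ i, v i * x i := by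
          rw [Finset.mul_sum]
          exact Finset.sum_congr rfl fun i _ => by ring
        rw [e]
        exact mul_le_mul_of_nonneg_left (hB x hx) hτ.le
    · funext i
      rcases i with i | i
      · simp only [cf1, bf1, Sum.elim_inl, hv]
        field_simp
        ring
      · rw [Subsingleton.elim i 0]
        simp only [cf1, bf1, Sum.elim_inr, hw]
        field_simp
        ring
  · rintro ⟨x, hx, hxy⟩
    obtain ⟨g1, g2, g4⟩ := hx
    have q1 : w = -(1 / (τ * (1 - τ))) * x (Sum.inr 0) + 1 / (1 - τ) := by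
      rw [hw, ← hxy]; simp [cf1, bf1]
    have q3 : ∀ j, v j = 1 / τ * x (Sum.inl j) := by
      intro j
      rw [hv, ← hxy]; simp [cf1, bf1]
    set om := x (Sum.inr 0) with hom
    have r1 : 1 + τ * w = (1 - om) / (1 - τ) := by
      rw [q1]; field_simp; ring
    have r2 : 1 - (1 - τ) * w = om / τ := by
      rw [q1]; field_simp; ring
    rw [r1, r2]
    refine ⟨div_nonneg (by linarith) hτ'.le, div_nonneg g1 hτ.le, ?_⟩
    intro z hz
    have := (mem_smul_polar h0' g1 _).1 g4 z hz
    have e : ∑ i, v i * z i = (∑ i, x (Sum.inl i) * z i) / τ := by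
      rw [Finset.sum_div]
      exact Finset.sum_congr rfl fun i _ => by rw [q3]; ring
    rw [e]
    exact div_le_div_of_nonneg_right this hτ.le

theorem vol_polar_cone [Nonempty ι] {L : Set (ι → ℝ)}
    (h0' : (0 : ι → ℝ) ∈ interior L) (hLp : IsBody (polar L)) {τ : ℝ} (hτ : 0 < τ) (hτ1 : τ < 1) :
    vol (polar ((fun z => z - ctr1 ι τ) '' cone L))
      = vol (polar L) / ((Fintype.card ι : ℝ) + 1) / ((1 - τ) * τ ^ (Fintype.card ι + 1)) := by
  have hτ' : 0 < 1 - τ := by linarith
  have h0P' : (0 : ι → ℝ) ∈ polar L := fun x _ => by simp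
  rw [polar_cone h0' hτ hτ1, vol_diag, vol_cone hLp h0P']
  have e : |∏ i, cf1 ι τ i| = 1 / ((1 - τ) * τ ^ (Fintype.card ι + 1)) := by
    rw [Fintype.prod_sum_type]
    simp only [cf1, Sum.elim_inl, Sum.elim_inr, Finset.prod_const, Finset.card_univ,
      Fintype.card_fin, pow_one]
    rw [abs_mul, abs_neg, abs_of_pos (by positivity), abs_of_pos (by positivity)]
    rw [div_pow, one_pow, pow_succ]
    field_simp
  rw [e]
  ring

end P248
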