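import Mathlib
import Vale.Agent.P248.PCone
import Vale.Agent.P248.Iter
import Vale.Agent.P254.Strict

/-! P248: iteration of joins and pyramids. -/

namespace P248

open MeasureTheory Set
open scoped Pointwise Nat
open P254

variable {ι κ : Type} [Fintype ι] [DecidableEq ι] [Fintype κ] [DecidableEq κ]

theorem pol_eq_polar (K : Set (ι → ℝ)) (z : ι → ℝ) :
    pol K z = polar ((fun x => x - z) '' K) := by
  ext y
  constructor
  · rintro h _ ⟨x, hx, rfl⟩
    exact h x hx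
  · intro h x hx
    exact h _ ⟨x, hx, rfl⟩

theorem body_sub {K : Set (ι → ℝ)} (hK : IsBody K) (a : ι → ℝ) :
    IsBody ((fun x => x - a) '' K) := by
  have h1 := hK.affine (LinearEquiv.refl ℝ (ι → ℝ)) (-a)
  simpa [sub_eq_add_neg] using h1

theorem zero_int_sub {K : Set (ι → ℝ)} {a : ι → ℝ} (ha : a ∈ interior K) :
    (0 : ι → ℝ) ∈ interior ((fun x => x - a) '' K) := by
  have h := (Homeomorph.subRight a).image_interior K
  have h2 : (Homeomorph.subRight a) a ∈ (Homeomorph.subRight a) '' interior K := ⟨a, ha, rfl⟩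
  rw [h] at h2
  simpa using h2

theorem norm_smul_mem {K : Set (ι → ℝ)} {ε : ℝ} (hball : Metric.ball 0 ε ⊆ K)
    {l b : ℝ} (hb : 0 < b) (hl : b < l) {x : ι → ℝ} (hx : ‖x‖ < b * ε) : x ∈ l • K := by
  have hl0 : 0 < l := hb.trans hl
  rw [mem_smul_set_iff_inv_smul_mem₀ hl0.ne']
  apply hball
  rw [mem_ball_zero_iff, norm_smul, norm_inv, Real.norm_eq_abs, abs_of_pos hl0,
    inv_mul_lt_iff₀ hl0]
  have hε : 0 < ε := by
    by_contra hcon
    rw [not_lt] at hcon
    have h1 := norm_nonneg x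
    have h2 : b * ε ≤ 0 := mul_nonpos_of_nonneg_of_nonpos hb.le hcon
    linarith
  nlinarith

theorem ctr_mem_interior {K : Set (ι → ℝ)} {L : Set (κ → ℝ)} (hK : IsBody K)
    (h0 : (0 : ι → ℝ) ∈ interior K) (h0' : (0 : κ → ℝ) ∈ interior L) {τ : ℝ} (hτ : 0 < τ)
    (hτ1 : τ < 1) : ctr ι κ τ ∈ interior (join K L) := by
  obtain ⟨ε, hε, hb⟩ := Metric.mem_nhds_iff.1 (mem_interior_iff_mem_nhds.1 h0)
  obtain ⟨ε', hε', hb'⟩ := Metric.mem_nhds_iff.1 (mem_interior_iff_mem_nhds.1 h0')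
  let U : Set (ι ⊕ (κ ⊕ Fin 1) → ℝ) := {z | τ / 2 < z (Sum.inr (Sum.inr 0))} ∩
    ({z | z (Sum.inr (Sum.inr 0)) < (1 + τ) / 2} ∩
    ({z | ‖(fun i => z (Sum.inl i))‖ < (1 - τ) / 2 * ε} ∩
      {z | ‖(fun j => z (Sum.inr (Sum.inl j)))‖ < τ / 2 * ε'}))
  have hU : IsOpen U := by
    refine (isOpen_lt (by fun_prop) (by fun_prop)).inter
      ((isOpen_lt (by fun_prop) (by fun_prop)).inter
      ((isOpen_lt (by fun_prop) (by fun_prop)).inter (isOpen_lt (by fun_prop) (by fun_prop))))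
  have hsub : U ⊆ join K L := by
    rintro z ⟨h1, h2, h3, h4⟩
    simp only [mem_setOf_eq] at h1 h2 h3 h4
    rw [mem_join hK (interior_subset h0)]
    refine ⟨by linarith, by linarith, ?_, ?_⟩
    · exact norm_smul_mem hb (by linarith : 0 < (1 - τ) / 2) (by linarith) h3
    · exact norm_smul_mem hb' (by linarith : 0 < τ / 2) h1 h4
  apply interior_maximal hsub hU
  have e1 : (fun i : ι => ctr ι κ τ (Sum.inl i)) = 0 := by funext i; simp [ctr]
  have e2 : (fun j : κ => ctr ι κ τ (Sum.inr (Sum.inl j))) = 0 := by funext i; simp [ctr]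
  refine ⟨?_, ?_, ?_, ?_⟩
  · simp only [mem_setOf_eq, ctr, Sum.elim_inr]; linarith
  · simp only [mem_setOf_eq, ctr, Sum.elim_inr]; linarith
  · simp only [mem_setOf_eq, e1, norm_zero]
    have : 0 < (1 - τ) / 2 := by linarith
    positivity
  · simp only [mem_setOf_eq, e2, norm_zero]
    positivity

theorem ctr1_mem_interior {K : Set (ι → ℝ)}
    (h0 : (0 : ι → ℝ) ∈ interior K) {τ : ℝ} (hτ : 0 < τ)
    (hτ1 : τ < 1) : ctr1 ι τ ∈ interior (cone K) := by
  obtain ⟨ε, hε, hb⟩ := Metric.mem_nhds_iff.1 (mem_interior_iff_mem_nhds.1 h0)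
  let U : Set (ι ⊕ Fin 1 → ℝ) := {z | τ / 2 < z (Sum.inr 0)} ∩
    ({z | z (Sum.inr 0) < 1} ∩ {z | ‖(fun i => z (Sum.inl i))‖ < τ / 2 * ε})
  have hU : IsOpen U := by
    refine (isOpen_lt (by fun_prop) (by fun_prop)).inter
      ((isOpen_lt (by fun_prop) (by fun_prop)).inter (isOpen_lt (by fun_prop) (by fun_prop)))
  have hsub : U ⊆ cone K := by
    rintro z ⟨h1, h2, h3⟩
    simp only [mem_setOf_eq] at h1 h2 h3
    refine ⟨by linarith, by linarith, ?_⟩
    exact norm_smul_mem hb (by linarith : 0 < τ / 2) h1 h3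
  apply interior_maximal hsub hU
  have e1 : (fun i : ι => ctr1 ι τ (Sum.inl i)) = 0 := by funext i; simp [ctr1]
  refine ⟨?_, ?_, ?_⟩
  · simp only [mem_setOf_eq, ctr1, Sum.elim_inr]; linarith
  · simp only [mem_setOf_eq, ctr1, Sum.elim_inr]; linarith
  · simp only [mem_setOf_eq, e1, norm_zero]
    positivity

/-- normalized volume product `r` is attained in dimension `N` -/
def HV (N : ℕ) (r : ℝ) : Prop :=
  ∃ (ι : Type) (_ : Fintype ι) (_ : DecidableEq ι) (_ : Nonempty ι), Fintype.card ι = N ∧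
    ∃ K : Set (ι → ℝ), IsBody K ∧ (0 : ι → ℝ) ∈ interior K ∧ IsBody (polar K) ∧
      vol K * vol (polar K) * ((N ! : ℝ) ^ 2 / ((N : ℝ) + 1) ^ (N + 1)) = r

theorem polar_body {K : Set (ι → ℝ)} (hK : IsBody K) (h0 : (0 : ι → ℝ) ∈ interior K) :
    IsBody (polar K) := by
  have h := (pol_body hK h0).1
  rw [pol_eq_polar] at h
  simpa using h

theorem HV.join {n m : ℕ} {r s : ℝ} (h1 : HV n r) (h2 : HV m s) : HV (n + m + 1) (r * s) := by
  obtain ⟨ι, _, _, _, hn, K, hK, hK0, hKp, hr⟩ := h1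
  obtain ⟨κ, _, _, _, hm, L, hL, hL0, hLp, hs⟩ := h2
  set τ : ℝ := ((m : ℝ) + 1) / ((n : ℝ) + m + 2) with hτd
  have hτ : 0 < τ := by positivity
  have hτ1 : τ < 1 := by
    rw [hτd, div_lt_one (by positivity)]
    have : (0 : ℝ) ≤ n := Nat.cast_nonneg n
    linarith
  have hτ2 : 1 - τ = ((n : ℝ) + 1) / ((n : ℝ) + m + 2) := by
    rw [hτd]; field_simp; ring
  have hJ : IsBody (P248.join K L) :=
    freeSum_body hK (interior_subset hK0) (cone_body hL (interior_subset hL0))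
      (zero_mem_cone (interior_subset hL0))
  have hint := ctr_mem_interior hK hK0 hL0 hτ hτ1
  have hb := body_sub hJ (ctr ι κ τ)
  have h0b := zero_int_sub hint
  refine ⟨ι ⊕ (κ ⊕ Fin 1), inferInstance, inferInstance, inferInstance, ?_,
    (fun z => z - ctr ι κ τ) '' P248.join K L, hb, h0b, polar_body hb h0b, ?_⟩
  · simp [hn, hm, add_assoc]
  · rw [vol_tr, vol_join hK (interior_subset hK0) hL (interior_subset hL0),
      vol_polar_join hK hK0 hL0 hKp hLp hτ hτ1, ← hr, ← hs, hn, hm, hτ2, hτd, div_pow, div_pow]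
    have e : ((n + m + 1 : ℕ) : ℝ) + 1 = (n : ℝ) + m + 2 := by push_cast; ring
    rw [e]
    have e2 : (n : ℝ) + m + 2 ≠ 0 := by positivity
    have e3 : n + m + 1 + 1 = (n + 1) + (m + 1) := by ring
    have hf : ((n + m + 1)! : ℝ) ≠ 0 := by positivity
    rw [e3, pow_add ((n : ℝ) + m + 2)]
    field_simp
    try ring

theorem HV.pyr {n : ℕ} {r : ℝ} (h1 : HV n r) : HV (n + 1) r := by
  obtain ⟨ι, _, _, _, hn, K, hK, hK0, hKp, hr⟩ := h1
  set τ : ℝ := ((n : ℝ) + 1) / ((n : ℝ) + 2) with hτd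
  have hτ : 0 < τ := by positivity
  have hτ1 : τ < 1 := by
    rw [hτd, div_lt_one (by positivity)]
    linarith
  have hτ2 : 1 - τ = 1 / ((n : ℝ) + 2) := by
    rw [hτd]; field_simp; ring
  have hJ : IsBody (cone K) := cone_body hK (interior_subset hK0)
  have hint := ctr1_mem_interior hK0 hτ hτ1
  have hb := body_sub hJ (ctr1 ι τ)
  have h0b := zero_int_sub hint
  refine ⟨ι ⊕ Fin 1, inferInstance, inferInstance, inferInstance, ?_,
    (fun z => z - ctr1 ι τ) '' cone K, hb, h0b, polar_body hb h0b, ?_⟩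
  · simp [hn]
  · rw [vol_tr, vol_cone hK (interior_subset hK0), vol_polar_cone hK0 hKp hτ hτ1, ← hr, hn, hτ2,
      hτd, div_pow, Nat.factorial_succ]
    have e : ((n + 1 : ℕ) : ℝ) + 1 = (n : ℝ) + 2 := by push_cast; ring
    rw [e, pow_succ ((n : ℝ) + 2) (n + 1)]
    push_cast
    field_simp

theorem HV.add {n : ℕ} {r : ℝ} (h : HV n r) (j : ℕ) : HV (n + j) r := by
  induction j with
  | zero => simpa using h
  | succ j ih => exact ih.pyr

theorem HV.pow {n : ℕ} {r : ℝ} (h : HV n r) (m : ℕ) : HV ((m + 1) * (n + 1) - 1) (r ^ (m + 1)) := by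
  induction m with
  | zero => simpa using h
  | succ m ih =>
    have h2 := ih.join h
    rw [pow_succ]
    have e : (m + 1 + 1) * (n + 1) - 1 = (m + 1) * (n + 1) - 1 + n + 1 := by
      have : 1 ≤ (m + 1) * (n + 1) := Nat.mul_pos (Nat.succ_pos m) (Nat.succ_pos n)
      have e2 : (m + 1 + 1) * (n + 1) = (m + 1) * (n + 1) + n + 1 := by ring
      omega
    rw [e]
    exact h2

theorem HV.fin {N : ℕ} {r : ℝ} (h : HV N r) :
    ∃ (K : Set (Fin N → ℝ)) (z : Fin N → ℝ), IsBody K ∧ z ∈ interior K ∧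
      vol K * vol (pol K z) * ((N ! : ℝ) ^ 2 / ((N : ℝ) + 1) ^ (N + 1)) = r := by
  obtain ⟨ι, _, _, _, hN, K, hK, hK0, _, hr⟩ := h
  let e : ι ≃ Fin N := Fintype.equivFinOfCardEq hN
  refine ⟨reix e K, fun k => (0 : ι → ℝ) (e.symm k), reix_body e hK, reix_int e hK0, ?_⟩
  rw [pol_reix, vol_reix, vol_reix, pol_eq_polar, ← hr]
  simp

theorem HV.of {n : ℕ} (hn : 1 ≤ n) {K : Set (Fin n → ℝ)} (hK : IsBody K) {z : Fin n → ℝ}
    (hz : z ∈ interior K) :
    HV n (vol K * vol (pol K z) * ((n ! : ℝ) ^ 2 / ((n : ℝ) + 1) ^ (n + 1))) := by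
  have : Nonempty (Fin n) := ⟨⟨0, hn⟩⟩
  have hb := body_sub hK z
  have h0 := zero_int_sub hz
  refine ⟨Fin n, inferInstance, inferInstance, inferInstance, by simp,
    (fun x => x - z) '' K, hb, h0, polar_body hb h0, ?_⟩
  rw [vol_tr, pol_eq_polar]

end P248
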