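import Mathlib
import Vale.Agent.P248.Iter
import Vale.Agent.P248.Arith2

namespace P248

open MeasureTheory Set
open scoped Nat
open P254 (IsBody vol prodBody freeSum)

variable {ι κ : Type} [Fintype ι] [DecidableEq ι] [Fintype κ] [DecidableEq κ]

omit [DecidableEq ι] in
theorem vp_nonneg (K : Set (ι → ℝ)) (z : ι → ℝ) : 0 ≤ vol K * vol (pol K z) :=
  mul_nonneg ENNReal.toReal_nonneg ENNReal.toReal_nonneg

theorem VP_le {K : Set (ι → ℝ)} {z : ι → ℝ} (hz : z ∈ interior K) :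
    VP K ≤ vol K * vol (pol K z) :=
  ciInf_le (f := fun z : interior K => vol K * vol (pol K z))
    ⟨0, by rintro _ ⟨w, rfl⟩; exact vp_nonneg K w⟩ ⟨z, hz⟩

theorem sym_zero_mem {K : Set (ι → ℝ)} (hK : IsBody K) (hs : ∀ x ∈ K, -x ∈ K) :
    (0 : ι → ℝ) ∈ interior K := by
  obtain ⟨a, ha⟩ := hK.int
  have hna : -a ∈ interior K := by
    have hsub : {x : ι → ℝ | -x ∈ interior K} ⊆ K := by
      intro x hx
      have := hs _ (interior_subset (s := K) hx)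
      rwa [neg_neg] at this
    have ho : IsOpen {x : ι → ℝ | -x ∈ interior K} := isOpen_interior.preimage continuous_neg
    have h1 : -a ∈ {x : ι → ℝ | -x ∈ interior K} := by
      change - -a ∈ interior K
      rwa [neg_neg]
    exact interior_maximal hsub ho h1
  have := hK.conv.interior ha hna (by norm_num : (0 : ℝ) ≤ 1 / 2) (by norm_num : (0 : ℝ) ≤ 1 / 2)
    (by norm_num)
  simpa using this

/-- the value of `K` at `z` as an `R` -/
theorem R.of {n : ℕ} {K : Set (Fin n → ℝ)} (hK : IsBody K) {z : Fin n → ℝ}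
    (hz : z ∈ interior K) (S : Prop) (hS : S → (∀ x ∈ K, -x ∈ K) ∧ z = 0) :
    R n ((n ! : ℝ) * (vol K * vol (pol K z))) S :=
  ⟨Fin n, inferInstance, inferInstance, K, z, by simp, hK, hz, rfl, hS⟩

theorem one_step {n : ℕ} (hn : 1 ≤ n) (h : Q1 (n + 1) 4) : Q1 n 4 := by
  intro K hK hs
  have h0 := sym_zero_mem hK hs
  obtain ⟨M, w, b, i, e, s⟩ := (R.comb hn le_rfl (R.of hK h0 True (fun _ => ⟨hs, rfl⟩))
    (R.seg True)).fin
  obtain ⟨s1, rfl⟩ := s trivial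
  have h2 := h M b s1
  have hf : (0 : ℝ) < ((n + 1)! : ℕ) := by positivity
  have hf2 : (0 : ℝ) < (n ! : ℕ) := by positivity
  rw [div_le_iff₀ hf] at h2
  rw [div_le_iff₀ hf2]
  have : (4 : ℝ) ^ (n + 1) ≤ (n ! : ℝ) * (vol K * vol (pol K 0)) * 4 := by
    rw [← e]; linarith
  rw [pow_succ] at this
  linarith

theorem core_step {n : ℕ} (hn : 1 ≤ n) {c : ℝ} (hc : 0 < c) {K : Set (Fin n → ℝ)}
    (hK : IsBody K) {z : Fin n → ℝ} (hz : z ∈ interior K) (S : Prop)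
    (hS : S → (∀ x ∈ K, -x ∈ K) ∧ z = 0)
    (hlt : (n ! : ℝ) * (vol K * vol (pol K z)) < c ^ n) :
    ∃ ε : ℝ, 0 < ε ∧ ε < c ∧ ∃ M : ℕ, ∀ N ≥ M, ∃ (L : Set (Fin N → ℝ)) (w : Fin N → ℝ),
      IsBody L ∧ w ∈ interior L ∧ vol L * vol (pol L w) < (c - ε) ^ N / (N ! : ℝ) ∧
      (S → (∀ x ∈ L, -x ∈ L) ∧ w = 0) := by
  have hg : 0 < (n ! : ℝ) * (vol K * vol (pol K z)) := by
    have h1 := P254.vol_pos hK
    have h2 := P254.vol_pos (pol_body hK hz).1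
    positivity
  obtain ⟨ε, hε, hεc, M, hM⟩ := arith' n hn c _ hc hg hlt
  refine ⟨ε, hε, hεc, M, fun N hN => ?_⟩
  obtain ⟨hnN, hb⟩ := hM N hN
  have hR := R.iter hn (R.of hK hz S hS) ((N - n) / n) ((N - n) % n)
  have hdim : n + (N - n) / n * n + (N - n) % n = N := by
    have := Nat.div_add_mod (N - n) n
    rw [mul_comm] at this
    omega
  rw [hdim] at hR
  obtain ⟨L, w, b, i, e, s⟩ := hR.fin
  refine ⟨L, w, b, i, ?_, s⟩
  have hf : (0 : ℝ) < (N ! : ℕ) := by positivity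
  rw [lt_div_iff₀ hf, mul_comm, e]
  exact hb

theorem q1_asym {c : ℝ} (hc : 0 < c)
    (h : ∀ ε : ℝ, 0 < ε → ε < c → ∀ M : ℕ, ∃ N ≥ M, Q1 N (c - ε)) (n : ℕ) (hn : 1 ≤ n) : Q1 n c := by
  intro K hK hs
  by_contra hlt
  push Not at hlt
  have h0 := sym_zero_mem hK hs
  have hf : (0 : ℝ) < (n ! : ℕ) := by positivity
  rw [lt_div_iff₀ hf, mul_comm] at hlt
  obtain ⟨ε, hε, hεc, M, hM⟩ := core_step hn hc hK h0 True (fun _ => ⟨hs, rfl⟩) hlt
  obtain ⟨N, hN, hQ⟩ := h ε hε hεc M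
  obtain ⟨L, w, b, i, e, s⟩ := hM N hN
  obtain ⟨s1, rfl⟩ := s trivial
  exact absurd (hQ L b s1) (not_le.2 e)

theorem q2_asym {c : ℝ} (hc : 0 < c)
    (h : ∀ ε : ℝ, 0 < ε → ε < c → ∀ M : ℕ, ∃ N ≥ M, Q2 N (c - ε)) (n : ℕ) (hn : 1 ≤ n) : Q2 n c := by
  intro K hK
  obtain ⟨a, ha⟩ := hK.int
  have : Nonempty (interior K) := ⟨⟨a, ha⟩⟩
  refine le_ciInf ?_
  rintro ⟨z, hz⟩
  by_contra hlt
  push Not at hlt
  have hf : (0 : ℝ) < (n ! : ℕ) := by positivity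
  rw [lt_div_iff₀ hf, mul_comm] at hlt
  obtain ⟨ε, hε, hεc, M, hM⟩ := core_step hn hc hK hz False (fun h => h.elim) hlt
  obtain ⟨N, hN, hQ⟩ := h ε hε hεc M
  obtain ⟨L, w, b, i, e, s⟩ := hM N hN
  exact absurd ((hQ L b).trans (VP_le i)) (not_le.2 e)

end P248
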