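import Vale.Agent.P248.JIter
import Vale.Agent.P248.ArithQ2
import Vale.Agent.P248.Main

/-! P248: the general Mahler inequality and joins. -/

namespace P248

open MeasureTheory Set Filter Topology
open scoped Pointwise Nat ENNReal
open P254 (IsBody vol)

/-- the value of the simplex -/
noncomputable def PS (n : ℕ) : ℝ := ((n : ℝ) + 1) ^ (n + 1) / (n ! : ℝ) ^ 2

theorem PS_pos (n : ℕ) : 0 < PS n := by unfold PS; positivity

theorem PS_inv (n : ℕ) (x : ℝ) :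
    x * ((n ! : ℝ) ^ 2 / ((n : ℝ) + 1) ^ (n + 1)) = x / PS n := by
  unfold PS
  field_simp

/-- the inequality of Q2 in dimension `n` -/
def Q2S (n : ℕ) : Prop := ∀ K : Set (Fin n → ℝ), IsBody K → PS n ≤ VP K

theorem le_VP {n : ℕ} {K : Set (Fin n → ℝ)} (hK : IsBody K) {c : ℝ}
    (h : ∀ z ∈ interior K, c ≤ vol K * vol (pol K z)) : c ≤ VP K := by
  have : Nonempty (interior K) := hK.int.to_subtype
  exact le_ciInf fun z => h z z.2

theorem exists_of_lt {n : ℕ} {K : Set (Fin n → ℝ)} (hK : IsBody K) {c : ℝ} (h : VP K < c) :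
    ∃ z ∈ interior K, vol K * vol (pol K z) < c := by
  by_contra hcon
  push Not at hcon
  exact absurd (le_VP hK hcon) (not_le.mpr h)

theorem HV.of {n : ℕ} {K : Set (Fin n → ℝ)} (hK : IsBody K) {z : Fin n → ℝ}
    (hz : z ∈ interior K) : HV n (vol K * vol (pol K z) / PS n) :=
  ⟨Fin n, inferInstance, inferInstance, K, z, by simp, hK, hz, PS_inv n _⟩

/-- amplification: a body of dimension `n` and an interior point with ratio `r` to the simplex
gives ratio `r ^ m` in each dimension `m (n + 1) - 1 + j` -/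
theorem q2_amplify {n : ℕ} {K : Set (Fin n → ℝ)} (hK : IsBody K) (m j : ℕ) (hm : 1 ≤ m) :
    ∀ z ∈ interior K, ∃ M : Set (Fin (m * (n + 1) - 1 + j) → ℝ), IsBody M ∧
      VP M ≤ (vol K * vol (pol K z) / PS n) ^ m * PS (m * (n + 1) - 1 + j) := by
  intro z hz
  obtain ⟨m', rfl⟩ : ∃ m', m = m' + 1 := ⟨m - 1, by omega⟩
  obtain ⟨M, w, hM, hw, e⟩ := (((HV.of hK hz).pow m').pyr j).fin
  refine ⟨M, hM, ?_⟩
  rw [PS_inv, div_eq_iff (PS_pos _).ne'] at e
  rw [← e]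
  exact VP_le hw

theorem q2_step {n : ℕ} (h : Q2S (n + 1)) : Q2S n := by
  intro K hK
  refine le_VP hK fun z hz => ?_
  obtain ⟨M, hM, hle⟩ := q2_amplify hK 1 1 le_rfl z hz
  have e : 1 * (n + 1) - 1 + 1 = n + 1 := by omega
  have h2 : ∀ N : ℕ, N = n + 1 → ∀ M : Set (Fin N → ℝ), IsBody M → PS N ≤ VP M := by
    rintro N rfl
    exact h
  have h3 := (h2 _ e M hM).trans hle
  rw [pow_one] at h3
  have h4 := PS_pos (1 * (n + 1) - 1 + 1)
  have h5 : 1 ≤ vol K * vol (pol K z) / PS n := by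
    by_contra hcon
    push Not at hcon
    have := mul_lt_mul_of_pos_right hcon h4
    linarith
  rwa [one_le_div (PS_pos n)] at h5

/-- if the inequality fails in dimension `n`, it fails exponentially in all large dimensions -/
theorem q2_fail {n : ℕ} {K : Set (Fin n → ℝ)} (hK : IsBody K) (h : VP K < PS n) :
    ∃ ε : ℝ, 0 < ε ∧ ε < 1 ∧ ∃ M : ℕ, ∀ N ≥ M, ∃ L : Set (Fin N → ℝ), IsBody L ∧
      VP L < (1 - ε) ^ N * PS N := by
  obtain ⟨z, hz, hlt⟩ := exists_of_lt hK h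
  have hpos : 0 < vol K * vol (pol K z) :=
    mul_pos (P254.vol_pos hK) (P254.vol_pos (pol_body hK hz).1)
  obtain ⟨ε, h0, h1, M, hM⟩ := arithQ2 n (vol K * vol (pol K z) / PS n)
    (div_pos hpos (PS_pos n)) ((div_lt_one (PS_pos n)).mpr hlt)
  refine ⟨ε, h0, h1, M, fun N hN => ?_⟩
  obtain ⟨m, j, hm, rfl, hr⟩ := hM N hN
  obtain ⟨L, hL, hle⟩ := q2_amplify hK m j hm z hz
  exact ⟨L, hL, hle.trans_lt (mul_lt_mul_of_pos_right hr (PS_pos _))⟩

theorem q2_iff : (∀ n : ℕ, 1 ≤ n → Q2S n) ↔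
    ∀ ε : ℝ, 0 < ε → ε < 1 → ∀ N₀ : ℕ, ∃ N ≥ N₀, ∀ K : Set (Fin N → ℝ), IsBody K →
      (1 - ε) ^ N * PS N ≤ VP K := by
  constructor
  · intro h ε h0 h1 N₀
    refine ⟨N₀ + 1, by omega, fun K hK => ?_⟩
    refine le_trans ?_ (h (N₀ + 1) (by omega) K hK)
    have h2 : (1 - ε) ^ (N₀ + 1) ≤ 1 := pow_le_one₀ (by linarith) (by linarith)
    have h3 := PS_pos (N₀ + 1)
    nlinarith
  · intro h n hn K hK
    by_contra hcon
    push Not at hcon
    obtain ⟨ε, h0, h1, M, hM⟩ := q2_fail hK hcon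
    obtain ⟨N, hN, hall⟩ := h ε h0 h1 M
    obtain ⟨L, hL, hlt⟩ := hM N hN
    exact absurd (hall L hL) (not_le.mpr hlt)

end P248
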