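import Vale.Agent.P248.JoinVol
import Vale.Agent.P248.Defs

/-! P248: joins. -/

namespace P248

open MeasureTheory Set Filter Topology
open scoped Pointwise Nat ENNReal
open P254 (IsBody vol)

variable {ι κ : Type} [Fintype ι] [DecidableEq ι] [Fintype κ] [DecidableEq κ]

/-- the join of two sets -/
def J (K : Set (ι → ℝ)) (L : Set (κ → ℝ)) : Set ((ι ⊕ κ) ⊕ Fin 1 → ℝ) :=
  {z | z (Sum.inr 0) ∈ Icc (0 : ℝ) 1 ∧
      (fun i => z (Sum.inl (Sum.inl i))) ∈ (1 - z (Sum.inr 0)) • K ∧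
      (fun j => z (Sum.inl (Sum.inr j))) ∈ z (Sum.inr 0) • L}

/-- the centre of the join -/
def zc (ι κ : Type) (t : ℝ) : (ι ⊕ κ) ⊕ Fin 1 → ℝ := Sum.elim (fun _ => 0) (fun _ => t)

theorem mem_smul_polJ {K : Set (ι → ℝ)} (h0 : (0 : ι → ℝ) ∈ interior K) {c : ℝ} (hc : 0 ≤ c)
    (y : ι → ℝ) : y ∈ c • pol K 0 ↔ ∀ x ∈ K, ∑ i, y i * x i ≤ c := by
  constructor
  · rintro ⟨u, hu, rfl⟩ x hx
    have := hu x hx
    simp only [Pi.zero_apply, sub_zero] at this
    have e : ∑ i, (c • u) i * x i = c * ∑ i, u i * x i := by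
      rw [Finset.mul_sum]
      refine Finset.sum_congr rfl fun i _ => ?_
      simp only [Pi.smul_apply, smul_eq_mul]
      ring
    show ∑ i, (c • u) i * x i ≤ c
    rw [e]
    nlinarith
  · intro h
    rcases hc.eq_or_lt with hc0 | hc0
    · have hev : ∀ᶠ δ : ℝ in 𝓝 0, δ • y ∈ K := by
        have hcont : ContinuousAt (fun δ : ℝ => δ • y) 0 := by fun_prop
        have hK : K ∈ 𝓝 ((0 : ℝ) • y) := by
          rw [zero_smul]
          exact mem_interior_iff_mem_nhds.mp h0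
        exact hcont.eventually hK
      obtain ⟨δ, hδ, hδ0⟩ := ((hev.filter_mono nhdsWithin_le_nhds).and
        (self_mem_nhdsWithin (s := Ioi (0 : ℝ)))).exists
      have h1 := h _ hδ
      have h2 : ∑ i, y i * (δ • y) i = δ * ∑ i, y i ^ 2 := by
        rw [Finset.mul_sum]
        refine Finset.sum_congr rfl fun i _ => ?_
        simp only [Pi.smul_apply, smul_eq_mul]
        ring
      rw [h2, ← hc0] at h1
      have h3 : ∑ i, y i ^ 2 ≤ 0 := by
        by_contra hcon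
        push Not at hcon
        have := mul_pos (show (0 : ℝ) < δ from hδ0) hcon
        linarith
      have h4 : ∀ i, y i = 0 := by
        intro i
        have h5 : y i ^ 2 ≤ ∑ i, y i ^ 2 :=
          Finset.single_le_sum (fun i _ => sq_nonneg (y i)) (Finset.mem_univ i)
        have h6 : y i ^ 2 = 0 := le_antisymm (h5.trans h3) (sq_nonneg _)
        exact pow_eq_zero_iff (two_ne_zero) |>.mp h6
      refine ⟨0, ?_, ?_⟩
      · intro x _
        simp
      · ext i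
        simp [h4 i]
    · refine ⟨c⁻¹ • y, ?_, ?_⟩
      · intro x hx
        have h1 := h x hx
        have e : ∑ i, (c⁻¹ • y) i * (x i - (0 : ι → ℝ) i) = c⁻¹ * ∑ i, y i * x i := by
          rw [Finset.mul_sum]
          refine Finset.sum_congr rfl fun i _ => ?_
          simp only [Pi.smul_apply, smul_eq_mul, Pi.zero_apply, sub_zero]
          ring
        rw [e]
        calc c⁻¹ * ∑ i, y i * x i ≤ c⁻¹ * c := mul_le_mul_of_nonneg_left h1 (by positivity)
          _ = 1 := inv_mul_cancel₀ hc0.ne'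
      · show c • c⁻¹ • y = y
        rw [smul_smul, mul_inv_cancel₀ hc0.ne', one_smul]

theorem sum_zc (y x : (ι ⊕ κ) ⊕ Fin 1 → ℝ) (t : ℝ) :
    ∑ i, y i * (x i - zc ι κ t i) = ∑ i, y (Sum.inl (Sum.inl i)) * x (Sum.inl (Sum.inl i)) +
      ∑ j, y (Sum.inl (Sum.inr j)) * x (Sum.inl (Sum.inr j)) +
      y (Sum.inr 0) * (x (Sum.inr 0) - t) := by
  rw [Fintype.sum_sum_type, Fintype.sum_sum_type]
  simp [zc]

theorem pol_J {K : Set (ι → ℝ)} {L : Set (κ → ℝ)} (hK : (0 : ι → ℝ) ∈ interior K)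
    (hL : (0 : κ → ℝ) ∈ interior L) {t : ℝ} (ht0 : 0 < t) (ht1 : t < 1)
    (z : (ι ⊕ κ) ⊕ Fin 1 → ℝ) :
    z ∈ pol (J K L) (zc ι κ t) ↔ z (Sum.inr 0) ∈ Icc (-1 / t) (1 / (1 - t)) ∧
      (fun i => z (Sum.inl (Sum.inl i))) ∈ (1 + z (Sum.inr 0) * t) • pol K 0 ∧
      (fun j => z (Sum.inl (Sum.inr j))) ∈ (1 - z (Sum.inr 0) * (1 - t)) • pol L 0 := by
  have h1t : 0 < 1 - t := by linarith
  have hK0 := interior_subset hK
  have hL0 := interior_subset hL
  constructor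
  · intro hz
    have hA : ∀ x ∈ K, ∑ i, z (Sum.inl (Sum.inl i)) * x i ≤ 1 + z (Sum.inr 0) * t := by
      intro x hx
      have hmem : (Sum.elim (Sum.elim x (fun _ => 0)) (fun _ => 0) : (ι ⊕ κ) ⊕ Fin 1 → ℝ)
          ∈ J K L := by
        refine ⟨⟨le_rfl, zero_le_one⟩, ?_, ?_⟩
        · refine ⟨x, hx, ?_⟩
          ext i
          simp
        · refine ⟨0, hL0, ?_⟩
          ext j
          simp
      have := hz _ hmem
      rw [sum_zc] at this
      simp only [Sum.elim_inl, Sum.elim_inr, mul_zero, Finset.sum_const_zero, add_zero,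
        zero_sub] at this
      linarith
    have hB : ∀ x ∈ L, ∑ j, z (Sum.inl (Sum.inr j)) * x j ≤ 1 - z (Sum.inr 0) * (1 - t) := by
      intro x hx
      have hmem : (Sum.elim (Sum.elim (fun _ => 0) x) (fun _ => 1) : (ι ⊕ κ) ⊕ Fin 1 → ℝ)
          ∈ J K L := by
        refine ⟨⟨zero_le_one, le_rfl⟩, ?_, ?_⟩
        · refine ⟨0, hK0, ?_⟩
          ext i
          simp
        · refine ⟨x, hx, ?_⟩
          ext j
          simp
      have := hz _ hmem
      rw [sum_zc] at this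
      simp only [Sum.elim_inl, Sum.elim_inr, mul_zero, Finset.sum_const_zero, zero_add] at this
      linarith
    have ha : 0 ≤ 1 + z (Sum.inr 0) * t := by
      have := hA 0 hK0
      simpa using this
    have hb : 0 ≤ 1 - z (Sum.inr 0) * (1 - t) := by
      have := hB 0 hL0
      simpa using this
    refine ⟨⟨?_, ?_⟩, (mem_smul_polJ hK ha _).mpr hA, (mem_smul_polJ hL hb _).mpr hB⟩
    · rw [div_le_iff₀ ht0]; linarith
    · rw [le_div_iff₀ h1t]; linarith
  · rintro ⟨⟨hs1, hs2⟩, hzA, hzB⟩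
    rw [div_le_iff₀ ht0] at hs1
    rw [le_div_iff₀ h1t] at hs2
    have hA := (mem_smul_polJ hK (by linarith) _).mp hzA
    have hB := (mem_smul_polJ hL (by linarith) _).mp hzB
    rintro x ⟨⟨hl0, hl1⟩, ⟨k, hk, hxk⟩, ⟨l, hl, hxl⟩⟩
    rw [sum_zc]
    have e1 : ∑ i, z (Sum.inl (Sum.inl i)) * x (Sum.inl (Sum.inl i))
        = (1 - x (Sum.inr 0)) * ∑ i, z (Sum.inl (Sum.inl i)) * k i := by
      rw [Finset.mul_sum]
      refine Finset.sum_congr rfl fun i _ => ?_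
      have := congrFun hxk i
      simp only [Pi.smul_apply, smul_eq_mul] at this
      rw [← this]
      ring
    have e2 : ∑ j, z (Sum.inl (Sum.inr j)) * x (Sum.inl (Sum.inr j))
        = x (Sum.inr 0) * ∑ j, z (Sum.inl (Sum.inr j)) * l j := by
      rw [Finset.mul_sum]
      refine Finset.sum_congr rfl fun i _ => ?_
      have := congrFun hxl i
      simp only [Pi.smul_apply, smul_eq_mul] at this
      rw [← this]
      ring
    rw [e1, e2]
    have h1 := mul_le_mul_of_nonneg_left (hA k hk) (show 0 ≤ 1 - x (Sum.inr 0) by linarith)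
    have h2 := mul_le_mul_of_nonneg_left (hB l hl) hl0
    nlinarith

theorem J_compact {K : Set (ι → ℝ)} {L : Set (κ → ℝ)} (hK : IsCompact K) (hL : IsCompact L) :
    IsCompact (J K L) := by
  have himg : J K L = (fun p : ℝ × ((ι → ℝ) × (κ → ℝ)) =>
      (Sum.elim (Sum.elim ((1 - p.1) • p.2.1) (p.1 • p.2.2)) (fun _ => p.1) :
        (ι ⊕ κ) ⊕ Fin 1 → ℝ)) '' (Set.Icc (0 : ℝ) 1 ×ˢ (K ×ˢ L)) := by
    ext z
    constructor
    · rintro ⟨hl, ⟨k, hk, hxk⟩, ⟨l, hl', hxl⟩⟩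
      refine ⟨(z (Sum.inr 0), (k, l)), ⟨hl, hk, hl'⟩, ?_⟩
      ext a
      rcases a with (a | a) | a
      · exact congrFun hxk a
      · exact congrFun hxl a
      · have : a = 0 := Subsingleton.elim _ _
        rw [this]
        rfl
    · rintro ⟨⟨s, x, y⟩, ⟨hs, hx, hy⟩, rfl⟩
      exact ⟨hs, ⟨x, hx, rfl⟩, ⟨y, hy, rfl⟩⟩
  rw [himg]
  refine (isCompact_Icc.prod (hK.prod hL)).image ?_
  refine continuous_pi ?_
  rintro ((a | a) | a)
  · simp only [Sum.elim_inl, Pi.smul_apply, smul_eq_mul]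
    fun_prop
  · simp only [Sum.elim_inr, Sum.elim_inl, Pi.smul_apply, smul_eq_mul]
    fun_prop
  · simp only [Sum.elim_inr]
    fun_prop

theorem J_convex {K : Set (ι → ℝ)} {L : Set (κ → ℝ)} (hK : Convex ℝ K) (hL : Convex ℝ L) :
    Convex ℝ (J K L) := by
  rintro z ⟨⟨hz0, hz1⟩, ⟨k, hk, hzk⟩, ⟨l, hl, hzl⟩⟩ z' ⟨⟨hz0', hz1'⟩, ⟨k', hk', hzk'⟩,
    ⟨l', hl', hzl'⟩⟩ a b ha hb hab
  refine ⟨⟨?_, ?_⟩, ?_, ?_⟩
  · show 0 ≤ a * z (Sum.inr 0) + b * z' (Sum.inr 0)
    positivity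
  · show a * z (Sum.inr 0) + b * z' (Sum.inr 0) ≤ 1
    nlinarith
  · have e : 1 - (a • z + b • z') (Sum.inr 0)
        = a * (1 - z (Sum.inr 0)) + b * (1 - z' (Sum.inr 0)) := by
      show 1 - (a * z (Sum.inr 0) + b * z' (Sum.inr 0)) = _
      linear_combination -hab
    rw [e, hK.add_smul (mul_nonneg ha (by linarith)) (mul_nonneg hb (by linarith))]
    refine ⟨(a * (1 - z (Sum.inr 0))) • k, ⟨k, hk, rfl⟩, (b * (1 - z' (Sum.inr 0))) • k',
      ⟨k', hk', rfl⟩, ?_⟩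
    ext i
    have h1 := congrFun hzk i
    have h2 := congrFun hzk' i
    simp only [Pi.smul_apply, smul_eq_mul] at h1 h2
    simp only [Pi.add_apply, Pi.smul_apply, smul_eq_mul]
    rw [← h1, ← h2]
    ring
  · have e : (a • z + b • z') (Sum.inr 0)
        = a * z (Sum.inr 0) + b * z' (Sum.inr 0) := rfl
    rw [e, hL.add_smul (mul_nonneg ha hz0) (mul_nonneg hb hz0')]
    refine ⟨(a * z (Sum.inr 0)) • l, ⟨l, hl, rfl⟩, (b * z' (Sum.inr 0)) • l',
      ⟨l', hl', rfl⟩, ?_⟩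
    ext i
    have h1 := congrFun hzl i
    have h2 := congrFun hzl' i
    simp only [Pi.smul_apply, smul_eq_mul] at h1 h2
    simp only [Pi.add_apply, Pi.smul_apply, smul_eq_mul]
    rw [← h1, ← h2]
    ring

theorem zc_mem {K : Set (ι → ℝ)} {L : Set (κ → ℝ)} (hK : (0 : ι → ℝ) ∈ interior K)
    (hL : (0 : κ → ℝ) ∈ interior L) {t : ℝ} (ht0 : 0 < t) (ht1 : t < 1) :
    zc ι κ t ∈ interior (J K L) := by
  rw [mem_interior_iff_mem_nhds]
  have h1 : ∀ᶠ z : (ι ⊕ κ) ⊕ Fin 1 → ℝ in 𝓝 (zc ι κ t), z (Sum.inr 0) ∈ Ioo (0 : ℝ) 1 := by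
    have hc : ContinuousAt (fun z : (ι ⊕ κ) ⊕ Fin 1 → ℝ => z (Sum.inr 0)) (zc ι κ t) :=
      (continuous_apply _).continuousAt
    exact hc.eventually (Ioo_mem_nhds ht0 ht1)
  have h2 : ∀ᶠ z : (ι ⊕ κ) ⊕ Fin 1 → ℝ in 𝓝 (zc ι κ t),
      ((1 - z (Sum.inr 0))⁻¹ • fun i => z (Sum.inl (Sum.inl i))) ∈ K := by
    have hc : ContinuousAt (fun z : (ι ⊕ κ) ⊕ Fin 1 → ℝ =>
        ((1 - z (Sum.inr 0))⁻¹ • fun i => z (Sum.inl (Sum.inl i)) : ι → ℝ)) (zc ι κ t) := by
      refine ContinuousAt.fun_smul ?_ ?_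
      · refine ContinuousAt.fun_inv₀ ?_ ?_
        · exact (continuous_const.sub (continuous_apply _)).continuousAt
        · show 1 - t ≠ 0
          linarith
      · exact (continuous_pi fun i => continuous_apply _).continuousAt
    have hv : ((1 - zc ι κ t (Sum.inr 0))⁻¹ • fun i => zc ι κ t (Sum.inl (Sum.inl i)) : ι → ℝ)
        = 0 := by
      ext i
      simp [zc]
    have hn : K ∈ 𝓝 ((1 - zc ι κ t (Sum.inr 0))⁻¹ •
        fun i => zc ι κ t (Sum.inl (Sum.inl i)) : ι → ℝ) := by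
      rw [hv]
      exact mem_interior_iff_mem_nhds.mp hK
    exact hc.eventually hn
  have h3 : ∀ᶠ z : (ι ⊕ κ) ⊕ Fin 1 → ℝ in 𝓝 (zc ι κ t),
      ((z (Sum.inr 0))⁻¹ • fun j => z (Sum.inl (Sum.inr j))) ∈ L := by
    have hc : ContinuousAt (fun z : (ι ⊕ κ) ⊕ Fin 1 → ℝ =>
        ((z (Sum.inr 0))⁻¹ • fun j => z (Sum.inl (Sum.inr j)) : κ → ℝ)) (zc ι κ t) := by
      refine ContinuousAt.fun_smul ?_ ?_
      · refine ContinuousAt.fun_inv₀ ?_ ?_
        · exact (continuous_apply _).continuousAt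
        · show t ≠ 0
          linarith
      · exact (continuous_pi fun i => continuous_apply _).continuousAt
    have hv : ((zc ι κ t (Sum.inr 0))⁻¹ • fun j => zc ι κ t (Sum.inl (Sum.inr j)) : κ → ℝ)
        = 0 := by
      ext i
      simp [zc]
    have hn : L ∈ 𝓝 ((zc ι κ t (Sum.inr 0))⁻¹ •
        fun j => zc ι κ t (Sum.inl (Sum.inr j)) : κ → ℝ) := by
      rw [hv]
      exact mem_interior_iff_mem_nhds.mp hL
    exact hc.eventually hn
  filter_upwards [h1, h2, h3] with z hz1 hz2 hz3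
  refine ⟨⟨hz1.1.le, hz1.2.le⟩, ⟨_, hz2, ?_⟩, ⟨_, hz3, ?_⟩⟩
  · show (1 - z (Sum.inr 0)) • (1 - z (Sum.inr 0))⁻¹ • (fun i => z (Sum.inl (Sum.inl i))) = _
    rw [smul_smul, mul_inv_cancel₀ (by linarith [hz1.2]), one_smul]
  · show z (Sum.inr 0) • (z (Sum.inr 0))⁻¹ • (fun j => z (Sum.inl (Sum.inr j))) = _
    rw [smul_smul, mul_inv_cancel₀ hz1.1.ne', one_smul]

theorem pol_closed (K : Set (ι → ℝ)) (z : ι → ℝ) : IsClosed (pol K z) := by
  have : pol K z = ⋂ x ∈ K, {y | ∑ i, y i * (x i - z i) ≤ 1} := by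
    ext y
    simp [pol]
  rw [this]
  refine isClosed_biInter fun x _ => ?_
  exact isClosed_le (by fun_prop) continuous_const

/-- the join: body, centre, product of volumes -/
theorem join_main {K : Set (ι → ℝ)} {L : Set (κ → ℝ)} (hK : IsBody K) (hL : IsBody L)
    (hK0 : (0 : ι → ℝ) ∈ interior K) (hL0 : (0 : κ → ℝ) ∈ interior L) {t : ℝ} (ht0 : 0 < t)
    (ht1 : t < 1) :
    IsBody (J K L) ∧ zc ι κ t ∈ interior (J K L) ∧
    vol (J K L) = ((Fintype.card ι)! * (Fintype.card κ)! /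
        (Fintype.card ι + Fintype.card κ + 1)! : ℝ) * (vol K * vol L) ∧
    vol (pol (J K L) (zc ι κ t)) = ((Fintype.card ι)! * (Fintype.card κ)! /
        (Fintype.card ι + Fintype.card κ + 1)! /
        ((1 - t) ^ (Fintype.card ι + 1) * t ^ (Fintype.card κ + 1)) : ℝ) *
        (vol (pol K 0) * vol (pol L 0)) := by
  have h1t : 0 < 1 - t := by linarith
  have hz := zc_mem hK0 hL0 ht0 ht1
  have hc := J_compact hK.comp hL.comp
  refine ⟨⟨J_convex hK.conv hL.conv, hc, ⟨_, hz⟩⟩, hz, ?_, ?_⟩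
  · have h := vol_join K L (J K L) hc.measurableSet (fun z => Iff.rfl)
    unfold vol
    rw [h, ENNReal.toReal_mul, ENNReal.toReal_mul, ENNReal.toReal_ofReal (by positivity)]
  · have h := vol_polar_join (pol K 0) (pol L 0) t ht0 ht1 (pol (J K L) (zc ι κ t))
      (pol_closed _ _).measurableSet (pol_J hK0 hL0 ht0 ht1)
    unfold vol
    rw [h, ENNReal.toReal_mul, ENNReal.toReal_mul, ENNReal.toReal_ofReal (by positivity)]

end P248
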