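import Mathlib
import Vale.Agent.P254.Radial

/-! P248: volume of joins. -/

namespace P248

open MeasureTheory Set
open scoped Pointwise Nat ENNReal

variable {ι κ : Type} [Fintype ι] [Fintype κ]

theorem slice_vol (A : Set (ι → ℝ)) (B : Set (κ → ℝ)) (a b : ℝ) (ha : 0 ≤ a) (hb : 0 ≤ b) :
    volume {z : ι ⊕ κ → ℝ | (fun i => z (Sum.inl i)) ∈ a • A ∧ (fun j => z (Sum.inr j)) ∈ b • B}
      = ENNReal.ofReal (a ^ Fintype.card ι * b ^ Fintype.card κ) * (volume A * volume B) := by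
  have hmp : MeasurePreserving (MeasurableEquiv.sumPiEquivProdPi (fun _ : ι ⊕ κ => ℝ)) volume
    volume := volume_measurePreserving_sumPiEquivProdPi (fun _ : ι ⊕ κ => ℝ)
  have h1 : {z : ι ⊕ κ → ℝ | (fun i => z (Sum.inl i)) ∈ a • A ∧ (fun j => z (Sum.inr j)) ∈ b • B}
      = (MeasurableEquiv.sumPiEquivProdPi (fun _ : ι ⊕ κ => ℝ)) ⁻¹' ((a • A) ×ˢ (b • B)) := by
    ext z
    rfl
  rw [h1, hmp.measure_preimage_equiv, Measure.volume_eq_prod, Measure.prod_prod,
    Measure.addHaar_smul, Measure.addHaar_smul, Module.finrank_fintype_fun_eq_card,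
    Module.finrank_fintype_fun_eq_card, abs_of_nonneg (pow_nonneg ha _),
    abs_of_nonneg (pow_nonneg hb _), ENNReal.ofReal_mul (pow_nonneg ha _)]
  ring

theorem join_vol (A : Set (ι → ℝ)) (B : Set (κ → ℝ)) (a b : ℝ → ℝ) (s0 s1 : ℝ)
    (hma : Measurable a) (hmb : Measurable b) (ha : ∀ s ∈ Icc s0 s1, 0 ≤ a s) (hb : ∀ s ∈ Icc s0 s1, 0 ≤ b s)
    (W : Set ((ι ⊕ κ) ⊕ Fin 1 → ℝ)) (hW : MeasurableSet W)
    (hmem : ∀ z, z ∈ W ↔ z (Sum.inr 0) ∈ Icc s0 s1 ∧
      (fun i => z (Sum.inl (Sum.inl i))) ∈ a (z (Sum.inr 0)) • A ∧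
      (fun j => z (Sum.inl (Sum.inr j))) ∈ b (z (Sum.inr 0)) • B) :
    volume W = (∫⁻ s in Icc s0 s1, ENNReal.ofReal (a s ^ Fintype.card ι * b s ^ Fintype.card κ))
      * (volume A * volume B) := by
  let e := MeasurableEquiv.sumPiEquivProdPi (fun _ : (ι ⊕ κ) ⊕ Fin 1 => ℝ)
  have hmp : MeasurePreserving e volume volume :=
    volume_measurePreserving_sumPiEquivProdPi (fun _ : (ι ⊕ κ) ⊕ Fin 1 => ℝ)
  let W' : Set ((ι ⊕ κ → ℝ) × (Fin 1 → ℝ)) := e.symm ⁻¹' W
  have hW' : MeasurableSet W' := e.symm.measurable hW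
  have h1 : volume W = volume W' := by
    have : e ⁻¹' W' = W := by
      ext z
      simp [W']
    rw [← this, hmp.measure_preimage_equiv]
  have h2 : ∀ (p : ι ⊕ κ → ℝ) (c : Fin 1 → ℝ), (p, c) ∈ W' ↔ c 0 ∈ Icc s0 s1 ∧
      (fun i => p (Sum.inl i)) ∈ a (c 0) • A ∧ (fun j => p (Sum.inr j)) ∈ b (c 0) • B := by
    intro p c
    exact hmem (e.symm (p, c))
  rw [h1, Measure.volume_eq_prod, Measure.prod_apply_symm hW']
  have h3 : ∀ c : Fin 1 → ℝ, volume ((fun p : ι ⊕ κ → ℝ => (p, c)) ⁻¹' W') =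
      (Icc s0 s1).indicator (fun s => ENNReal.ofReal (a s ^ Fintype.card ι * b s ^ Fintype.card κ)
        * (volume A * volume B)) (c 0) := by
    intro c
    by_cases hc : c 0 ∈ Icc s0 s1
    · rw [indicator_of_mem hc, ← slice_vol A B (a (c 0)) (b (c 0)) (ha _ hc) (hb _ hc)]
      congr 1
      ext p
      constructor
      · intro hp
        exact ((h2 p c).mp hp).2
      · intro hp
        exact (h2 p c).mpr ⟨hc, hp⟩
    · rw [indicator_of_notMem hc]
      have : (fun p : ι ⊕ κ → ℝ => (p, c)) ⁻¹' W' = ∅ := by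
        ext p
        constructor
        · intro hp
          exact absurd ((h2 p c).mp hp).1 hc
        · intro hp
          exact absurd hp (notMem_empty _)
      rw [this, measure_empty]
  simp_rw [h3]
  have hmp1 : MeasurePreserving (MeasurableEquiv.funUnique (Fin 1) ℝ) volume volume :=
    volume_preserving_funUnique (Fin 1) ℝ
  have h4 := hmp1.lintegral_comp_emb (MeasurableEquiv.funUnique (Fin 1) ℝ).measurableEmbedding
    ((Icc s0 s1).indicator (fun s =>
      ENNReal.ofReal (a s ^ Fintype.card ι * b s ^ Fintype.card κ) * (volume A * volume B)))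
  have h5 : ∀ c : Fin 1 → ℝ, (MeasurableEquiv.funUnique (Fin 1) ℝ) c = c 0 := fun c => rfl
  simp_rw [h5] at h4
  rw [h4, lintegral_indicator measurableSet_Icc, lintegral_mul_const]
  exact ENNReal.measurable_ofReal.comp ((hma.pow_const _).mul (hmb.pow_const _))

theorem lint_eq (f : ℝ → ℝ) (hf : Continuous f) (s0 s1 : ℝ) (h01 : s0 ≤ s1)
    (h0 : ∀ s ∈ Icc s0 s1, 0 ≤ f s) :
    ∫⁻ s in Icc s0 s1, ENNReal.ofReal (f s) = ENNReal.ofReal (∫ s in s0..s1, f s) := by
  rw [intervalIntegral.integral_of_le h01, ← integral_Icc_eq_integral_Ioc,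
    ofReal_integral_eq_lintegral_ofReal (hf.continuousOn.integrableOn_Icc)]
  exact (ae_restrict_iff' measurableSet_Icc).mpr (Filter.Eventually.of_forall h0)

theorem beta_flip (n m : ℕ) :
    ∫ t in (0 : ℝ)..1, (1 - t) ^ n * t ^ m = (n ! * m ! / (n + m + 1)! : ℝ) := by
  have h := P254.beta_nat n m
  have e : ∀ t : ℝ, (1 - t) ^ n * t ^ m = t ^ m * (1 - t) ^ n := fun t => mul_comm _ _
  simp_rw [e]
  rw [h, mul_comm (m ! : ℝ) (n ! : ℝ), Nat.add_comm m n]

/-- volume of the join -/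
theorem vol_join (A : Set (ι → ℝ)) (B : Set (κ → ℝ))
    (W : Set ((ι ⊕ κ) ⊕ Fin 1 → ℝ)) (hW : MeasurableSet W)
    (hmem : ∀ z, z ∈ W ↔ z (Sum.inr 0) ∈ Icc (0 : ℝ) 1 ∧
      (fun i => z (Sum.inl (Sum.inl i))) ∈ (1 - z (Sum.inr 0)) • A ∧
      (fun j => z (Sum.inl (Sum.inr j))) ∈ z (Sum.inr 0) • B) :
    volume W = ENNReal.ofReal ((Fintype.card ι)! * (Fintype.card κ)! /
        (Fintype.card ι + Fintype.card κ + 1)! : ℝ) * (volume A * volume B) := by
  rw [join_vol A B (fun s => 1 - s) (fun s => s) 0 1 (by fun_prop) (by fun_prop)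
    (fun s hs => by linarith [hs.2]) (fun s hs => hs.1) W hW hmem,
    lint_eq (fun s => (1 - s) ^ Fintype.card ι * s ^ Fintype.card κ) (by fun_prop) 0 1
      zero_le_one (fun s hs => mul_nonneg (pow_nonneg (by linarith [hs.2]) _)
        (pow_nonneg hs.1 _)), beta_flip]

/-- volume of the polar of the join -/
theorem vol_polar_join (A : Set (ι → ℝ)) (B : Set (κ → ℝ)) (t : ℝ) (ht0 : 0 < t) (ht1 : t < 1)
    (W : Set ((ι ⊕ κ) ⊕ Fin 1 → ℝ)) (hW : MeasurableSet W)
    (hmem : ∀ z, z ∈ W ↔ z (Sum.inr 0) ∈ Icc (-1 / t) (1 / (1 - t)) ∧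
      (fun i => z (Sum.inl (Sum.inl i))) ∈ (1 + z (Sum.inr 0) * t) • A ∧
      (fun j => z (Sum.inl (Sum.inr j))) ∈ (1 - z (Sum.inr 0) * (1 - t)) • B) :
    volume W = ENNReal.ofReal ((Fintype.card ι)! * (Fintype.card κ)! /
        (Fintype.card ι + Fintype.card κ + 1)! /
        ((1 - t) ^ (Fintype.card ι + 1) * t ^ (Fintype.card κ + 1)) : ℝ) *
        (volume A * volume B) := by
  have h1t : 0 < 1 - t := by linarith
  have hle : -1 / t ≤ 1 / (1 - t) := by
    have h1 : -1 / t < 0 := div_neg_of_neg_of_pos (by norm_num) ht0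
    have h2 : 0 < 1 / (1 - t) := by positivity
    linarith
  have ha : ∀ s ∈ Icc (-1 / t) (1 / (1 - t)), 0 ≤ 1 + s * t := by
    intro s hs
    have := (div_le_iff₀ ht0).mp hs.1
    linarith
  have hb : ∀ s ∈ Icc (-1 / t) (1 / (1 - t)), 0 ≤ 1 - s * (1 - t) := by
    intro s hs
    have := (le_div_iff₀ h1t).mp hs.2
    linarith
  rw [join_vol A B (fun s => 1 + s * t) (fun s => 1 - s * (1 - t)) (-1 / t) (1 / (1 - t))
    (by fun_prop) (by fun_prop) ha hb W hW hmem,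
    lint_eq (fun s => (1 + s * t) ^ Fintype.card ι * (1 - s * (1 - t)) ^ Fintype.card κ)
      (by fun_prop) _ _ hle (fun s hs => mul_nonneg (pow_nonneg (ha s hs) _)
        (pow_nonneg (hb s hs) _))]
  congr 2
  have hcomp := intervalIntegral.integral_comp_sub_mul
    (fun l : ℝ => ((1 - l) / (1 - t)) ^ Fintype.card ι * (l / t) ^ Fintype.card κ)
    (c := t * (1 - t)) (a := -1 / t) (b := 1 / (1 - t)) (by positivity) t
  have e1 : ∀ s : ℝ, ((1 - (t - t * (1 - t) * s)) / (1 - t)) ^ Fintype.card ι *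
      ((t - t * (1 - t) * s) / t) ^ Fintype.card κ
      = (1 + s * t) ^ Fintype.card ι * (1 - s * (1 - t)) ^ Fintype.card κ := by
    intro s
    have e2 : (1 - (t - t * (1 - t) * s)) / (1 - t) = 1 + s * t := by
      field_simp
      ring
    have e3 : (t - t * (1 - t) * s) / t = 1 - s * (1 - t) := by
      field_simp
    rw [e2, e3]
  simp_rw [e1] at hcomp
  rw [hcomp]
  have e4 : t - t * (1 - t) * (1 / (1 - t)) = 0 := by field_simp; ring
  have e5 : t - t * (1 - t) * (-1 / t) = 1 := by field_simp; ring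
  rw [e4, e5, smul_eq_mul]
  have e6 : ∀ l : ℝ, ((1 - l) / (1 - t)) ^ Fintype.card ι * (l / t) ^ Fintype.card κ
      = (1 / ((1 - t) ^ Fintype.card ι * t ^ Fintype.card κ)) *
        ((1 - l) ^ Fintype.card ι * l ^ Fintype.card κ) := by
    intro l
    rw [div_pow, div_pow]
    field_simp
  simp_rw [e6]
  rw [intervalIntegral.integral_const_mul, beta_flip]
  rw [pow_succ, pow_succ]
  field_simp

end P248
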