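import Mathlib
import Vale.Agent.P248.Main

namespace P248

open MeasureTheory Set
open scoped Nat
open P254 (IsBody vol prodBody freeSum)

theorem Q1.mono {n : ℕ} {c d : ℝ} (hc : 0 ≤ c) (hcd : c ≤ d) (h : Q1 n d) : Q1 n c := by
  intro K hK hs
  refine le_trans ?_ (h K hK hs)
  gcongr

theorem Q2.mono {n : ℕ} {c d : ℝ} (hc : 0 ≤ c) (hcd : c ≤ d) (h : Q2 n d) : Q2 n c := by
  intro K hK
  refine le_trans ?_ (h K hK)
  gcongr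

theorem q1_iff {c : ℝ} (hc : 0 < c) : ((∀ n : ℕ, 1 ≤ n → Q1 n c) ↔
      ∀ ε : ℝ, 0 < ε → ε < c → ∀ M : ℕ, ∃ N ≥ M, Q1 N (c - ε)) := by
  constructor
  · intro h ε hε hεc M
    exact ⟨M + 1, by omega, (h (M + 1) (by omega)).mono (by linarith) (by linarith)⟩
  · intro h n hn
    exact q1_asym hc h n hn

theorem q2_iff {c : ℝ} (hc : 0 < c) : ((∀ n : ℕ, 1 ≤ n → Q2 n c) ↔
      ∀ ε : ℝ, 0 < ε → ε < c → ∀ M : ℕ, ∃ N ≥ M, Q2 N (c - ε)) := by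
  constructor
  · intro h ε hε hεc M
    exact ⟨M + 1, by omega, (h (M + 1) (by omega)).mono (by linarith) (by linarith)⟩
  · intro h n hn
    exact q2_asym hc h n hn

theorem q1_amplify {n : ℕ} (hn : 1 ≤ n) {K : Set (Fin n → ℝ)} (hK : IsBody K)
    (hs : ∀ x ∈ K, -x ∈ K) (hlt : vol K * vol (pol K 0) < 4 ^ n / (n ! : ℝ)) :
      ∃ ε : ℝ, 0 < ε ∧ ε < 4 ∧ ∃ M : ℕ, ∀ N ≥ M, ∃ L : Set (Fin N → ℝ), IsBody L ∧
        (∀ x ∈ L, -x ∈ L) ∧ vol L * vol (pol L 0) < (4 - ε) ^ N / (N ! : ℝ) := by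
  have h0 := sym_zero_mem hK hs
  have hf : (0 : ℝ) < (n ! : ℕ) := by positivity
  rw [lt_div_iff₀ hf, mul_comm] at hlt
  obtain ⟨ε, hε, hεc, M, hM⟩ := core_step hn (by norm_num) hK h0 True (fun _ => ⟨hs, rfl⟩) hlt
  refine ⟨ε, hε, hεc, M, fun N hN => ?_⟩
  obtain ⟨L, w, b, i, e, s⟩ := hM N hN
  obtain ⟨s1, rfl⟩ := s trivial
  exact ⟨L, b, s1, e⟩

end P248
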